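import Crest.Agent.N250.Gi.Wf
import Crest.Agent.N250.B1.Sm3
import Crest.Agent.N250.B1.DrS
import Crest.Agent.N250.Act.Inst
import Crest.Agent.N250.Fm.Act

/-!
# Row 250 (helper3): conjugation symmetry of the working family and of its action
-/

set_option autoImplicit false
open Set Complex
open scoped ComplexConjugate

noncomputable section

namespace Crest.Agent.N250.Gi.Cj

open B1 B1.Cj

section hj

variable {N : ℕ} {X V : ℂ}

theorem eN_cj (N : ℕ) (w : ℂ) : HJ.eN N (conj w) = conj (HJ.eN N w) := by simp [HJ.eN]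

theorem cN_cj (N : ℕ) (w : ℂ) : HJ.cN N (conj w) = conj (HJ.cN N w) := by simp [HJ.cN]

theorem ww_cj (X V : ℂ) : HJ.ww (conj X) (conj V) = conj (HJ.ww X V) := by simp [HJ.ww, map_ofNat]

theorem EE_cj (X V : ℂ) : HJ.EE (conj X) (conj V) = conj (HJ.EE X V) := by
  simp [HJ.EE, ← exp_conj, map_ofNat]

theorem half_cj {z : ℂ} (h : 0 < z.re) : conj z ^ (1 / 2 : ℂ) = conj (z ^ (1 / 2 : ℂ)) := by
  rw [conj_cpow _ _ (slitPlane_arg_ne_pi (.inl h))]
  simp [map_ofNat]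

theorem rr_cj (h : 0 < V.re) : HJ.rr (conj V) = conj (HJ.rr V) := by
  rw [HJ.rr, HJ.rr, ← half_cj (by simpa using h), map_mul, map_ofNat]

theorem S_cj (N : ℕ) (X : ℂ) (h : 0 < V.re) : HJ.S N (conj X) (conj V) = conj (HJ.S N X V) := by
  simp [HJ.S, EE_cj, rr_cj h, ww_cj, eN_cj, map_ofNat]

theorem nu_cj (N : ℕ) (X V : ℂ) : HJ.nu N (conj X) (conj V) = conj (HJ.nu N X V) := by
  simp [HJ.nu, ww_cj, eN_cj, cN_cj, map_ofNat]

theorem tau_cj (N : ℕ) (X V : ℂ) : HJ.tau N (conj X) (conj V) = conj (HJ.tau N X V) := by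
  simp [HJ.tau, ww_cj, eN_cj, cN_cj, map_ofNat]

theorem cs_cj (hN : HJ.N0 ≤ N) (h : HJ.Adm N X V) :
    HJ.cs N (conj X) (conj V) = conj (HJ.cs N X V) := by
  have h1 := (re_le_norm _).trans (h.z_le hN)
  have h2 := h.w_small hN
  rw [HJ.cs, HJ.cs, ← half_cj (by rw [sub_re, one_re]; linarith), ww_cj, tau_cj]
  simp [map_ofNat]

theorem slope_cj (hN : HJ.N0 ≤ N) (h : HJ.Adm N X V) :
    HJ.slope N (conj X) (conj V) = conj (HJ.slope N X V) := by
  simp [HJ.slope, tau_cj, cs_cj hN h, map_ofNat]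



theorem hN_cj {a : ℂ} (h0 : HJ.N0 ≤ N) (h : HJ.Adm N X (et a X)) :
    hN N (conj X) (conj a) = conj (hN N X a) := by
  rw [hN, hN, et_cj, slope_cj h0 h, map_sub, map_mul]

/-- the boundary action along the far parameter -/
theorem S_et_cj (N : ℕ) {X a : ℂ} (h : 0 < (et a X).re) :
    HJ.S N (conj X) (et (conj a) (conj X)) = conj (HJ.S N X (et a X)) := by rw [et_cj, S_cj N X h]

theorem S_im (N : ℕ) (X : ℝ) {a : ℝ} (h : 0 < (et a X).re) : (HJ.S N X (et a X)).im = 0 :=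
  conj_eq_iff_im.1 (by rw [← S_et_cj N h, conj_ofReal, conj_ofReal])


end hj

variable {ℓ : Ell}

/-- conjugation of the parameters of the working family -/
def cq (q : Pw) : Pw := (conj q.1, conj q.2.1, Wi.cj q.2.2)

@[simp] theorem cq_cq (q : Pw) : cq (cq q) = q := by simp [cq]



theorem wd_cj (b : Wi (omP 2)) (h : ℂ) : (wd (Wi.cj b) (conj h) : Dat ℓ) = cD (wd b h) := by
  simp [wd, cD, cj_single (ev_omF ℓ)]

theorem wf_eq (N : ℕ) (q : Pw) : wf ℓ N q = (q.1, q.2.1, wd q.2.2 (hN N q.1 q.2.1)) := rfl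

theorem cz_wd (X a h : ℂ) (b : Wi (omP 2)) :
    cz ((X, a, wd b h) : Par ℓ) = (conj X, conj a, wd (Wi.cj b) (conj h)) := by rw [wd_cj]; rfl

theorem wf_cj' {N : ℕ} {q : Pw} (h0 : HJ.N0 ≤ N) (h : HJ.Adm N q.1 (et q.2.1 q.1)) :
    wf ℓ N (cq q) = cz (wf ℓ N q) := by
  rw [wf_eq, wf_eq, cz_wd, ← hN_cj h0 h]; rfl

section big

variable {N : ℕ} {R K K1 g g' ε ε1 C X1 : ℝ} {q : Pw} {U : Par ℓ → Jt ℓ}

theorem wf_cj (h : Big N R K ε X1) (hq : q ∈ Ow R K g ε X1) : wf ℓ N (cq q) = cz (wf ℓ N q) :=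
  wf_cj' h.N0 (h.hj hq)




end big

section fn

variable {R : ℝ} {X a : ℂ} {J : Jt ℓ}

theorem vk_cj (R : ℝ) (X a : ℂ) (J : Jt ℓ) (τ : ℝ → II) (k : Fin 6) (y : ℝ × ℝ) :
    vk R (conj X) (conj a) (cJ J) τ k y = conj (vk R X a J τ k y) := vj_cj ..

theorem vS_cj (R : ℝ) (z : Par ℓ) (J : Jt ℓ) (y : ℝ × ℝ) :
    vS R (cz z) (cJ J) y = conj (vS R z J y) := vk_cj R z.1 z.2.1 J _ 0 y




/-- the cut-off action (real cut-off) -/
theorem actC_cj {χ : ℝ → ℂ} (hχ : ∀ s, conj (χ s) = χ s) (h : RegJ R X a J) :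
    Act.actC χ R (conj X) (conj a) (cJ J) = conj (Act.actC χ R X a J) := by
  simp only [Act.actC, Act.act, Act.II, ← Act.Lag_eq, Act.vf, ex, vj_cj, gam_cj, dgam_cj,
    fun s θ => Lag_cj (x := gam R X s) (h s θ).2, ← intervalIntegral.intervalIntegral_conj, map_mul, hχ]
  rfl


end fn

end Crest.Agent.N250.Gi.Cj

end
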