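import Crest.Agent.N250.B1.Stm
import Crest.Agent.N250.H.Hol

/-!
# Row 250, block B1 (helper68): Cauchy bounds for the variation of the far circle
-/

set_option autoImplicit false
open Set Complex Metric Filter Topology

noncomputable section

namespace Crest.Agent.N250.Gi

open B1

variable {ℓ : Ell}

theorem xr_one (R X : ℝ) : xr R X 1 = X := by
  simp only [xr, cub]; norm_num

theorem xr_i1 (R X : ℝ) : xr R X (i1 : II) = X := xr_one R X

theorem val_hasSum (u : Wi (om ℓ)) (s : II) (θ : ℝ) :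
    HasSum (fun m => Wi.ex m θ * Wi.co u m s) (val u s θ) := by
  have := (ContinuousMap.evalCLM ℂ s).hasSum (Wi.hasSum_syn u θ)
  simpa [val] using this

/-- the value of a function without mode `0` at the point -/
theorem val_le {R X M : ℝ} {f0 f : ℝ → ℝ} {u : Wi (om ℓ)} (h : WB R X f0 f u M) (s : II)
    (h0 : Wi.co u 0 s = 0) (p0 : 0 < f0 (xr R X s)) (p : 0 ≤ f (xr R X s)) (θ : ℝ) :
    ‖val u s θ‖ ≤ M * f (xr R X s) := by
  obtain ⟨β, hs, hM, b0, b1⟩ := h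
  refine (tsum_of_norm_bounded (hs.hasSum.mul_right (f (xr R X s))) fun m => ?_).trans'
    (le_of_eq (by rw [(val_hasSum u s θ).tsum_eq])) |>.trans (by gcongr)
  rw [norm_mul, Wi.norm_ex, one_mul]
  by_cases hm : m = 0
  · subst hm
    rw [h0, norm_zero]
    exact mul_nonneg (nonneg_of_mul_nonneg_left ((norm_nonneg _).trans (b0 s)) p0) p
  · refine le_trans (le_mul_of_one_le_left (norm_nonneg _) (Real.one_le_exp (mul_nonneg
      (sig_nonneg (by have := s.2.1; positivity)) (ℓ.nonneg m)))) (b1 m hm s)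

theorem adm_norm {K X : ℝ} {a : ℂ} (hK : 0 ≤ K) (h : Adm K X a) : ‖a‖ * X ^ 2 ≤ 5 / 2 := by
  have h1 : 0 ≤ 2 * K / X ^ 2 := by positivity
  have h2 := norm_add_le (a * X ^ 2 / 2 - 1 / 8) (1 / 8)
  rw [sub_add_cancel, norm_div, norm_mul, norm_pow, norm_real, Complex.norm_two,
    Real.norm_eq_abs, sq_abs] at h2
  have h3 : ‖(1 / 8 : ℂ)‖ = 1 / 8 := by simp
  unfold Adm at h
  linarith

/-- `‖η‖ ≤ 4` at a complex cut -/
theorem et_le {K : ℝ} {X a : ℂ} (hK : 0 ≤ K) (h2 : 2 ≤ X.re) (hi : |X.im| ≤ 1)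
    (h : Adm K X.re a) : ‖et a X‖ ≤ 4 := by
  have h1 := adm_norm hK h
  have h3 : ‖X‖ ^ 2 ≤ X.re ^ 2 + 1 := by
    rw [Complex.sq_norm, normSq_apply]
    nlinarith [abs_nonneg X.im, sq_abs X.im]
  have h4 : ‖X ^ 2 - 2‖ ≤ 2 * X.re ^ 2 := by
    refine (norm_sub_le _ _).trans ?_
    rw [norm_pow, Complex.norm_two]; nlinarith
  refine (norm_add_le _ _).trans ?_
  rw [norm_one, norm_div, norm_mul, Complex.norm_two]
  nlinarith [mul_le_mul_of_nonneg_left h4 (norm_nonneg a)]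

theorem W_le {g g' K X : ℝ} {a : ℂ} (hg : Ex g g') (hK : 0 ≤ K) (h2 : 2 ≤ X) (h : Adm K X a) :
    W g g' a X ≤ 16 * X ^ (-g) := by
  have h1 : ‖et a X‖ ≤ 4 := et_le (X := X) hK (by simpa using h2) (by simp) (by simpa using h)
  have h0 : 0 ≤ g' := by linarith [hg.1, hg.2.2]
  have h3 : ‖et a X‖ ^ g' ≤ 16 := by
    refine (Real.rpow_le_rpow (norm_nonneg _) h1 h0).trans ?_
    refine (Real.rpow_le_rpow_of_exponent_le (by norm_num) hg.2.1.le).trans ?_
    norm_num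
  rw [W, mul_comm]
  exact mul_le_mul_of_nonneg_right h3 (Real.rpow_nonneg (by linarith) _)

theorem rho_pos {K X : ℝ} (hK : 0 ≤ K) (h2 : 2 ≤ X) : 0 < rho K X X := by
  have h0 : 0 < X ^ 2 := by positivity
  have h1 : (X ^ 2 - 2) / X ^ 2 < 1 := by rw [div_lt_one h0]; linarith
  have h3 : 0 ≤ (X ^ 2 - 2) / X ^ 2 := div_nonneg (by nlinarith) h0.le
  have h4 : 0 ≤ 2 * K / X ^ 2 := by positivity
  unfold rho
  nlinarith [mul_nonneg h3 h4]

theorem W_nonneg (g g' : ℝ) (a : ℂ) {x : ℝ} (hx : 0 ≤ x) : 0 ≤ W g g' a x :=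
  mul_nonneg (Real.rpow_nonneg hx _) (Real.rpow_nonneg (norm_nonneg _) _)

/-- the non symmetric part on the far circle -/
theorem far_val_le {R K g g' X M : ℝ} {a : ℂ} {J : Jt ℓ} (hK : 0 ≤ K) (h2 : 2 ≤ X)
    (h : InB R K g g' X a M J) (h0 : Wi.co (J 0) 0 i1 = 0) (θ : ℝ) :
    ‖val (J 0) i1 θ‖ ≤ M * W g g' a X := by
  have := val_le h.b0 i1 h0 (by rw [xr_i1]; exact rho_pos hK h2)
    (by rw [xr_i1]; exact W_nonneg _ _ _ (by linarith)) θ
  rwa [xr_i1] at this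

/-- evaluation of the `k`-th component as a continuous linear map -/
def valL (ℓ : Ell) (k : Fin 6) (s : II) (θ : ℝ) : Jt ℓ →L[ℂ] ℂ :=
  (ContinuousMap.evalCLM ℂ s).comp
    ((Wi.ev (om ℓ) θ).toContinuousLinearMap.comp (ContinuousLinearMap.proj k))

theorem valL_apply (k : Fin 6) (s : II) (θ : ℝ) (J : Jt ℓ) : valL ℓ k s θ J = val (J k) s θ := rfl

/-- a Fourier coefficient of the `k`-th component as a continuous linear map -/
def coefL (ℓ : Ell) (k : Fin 6) (m : ℤ) (s : II) : Jt ℓ →L[ℂ] ℂ :=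
  (ContinuousMap.evalCLM ℂ s).comp ((Wi.coL (om ℓ) m).comp (ContinuousLinearMap.proj k))






end Crest.Agent.N250.Gi

end
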