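import Crest.Agent.N250.Gi.Defs
import Crest.Agent.N250.HJ.Main

/-!
# Row 250 (helper62): the position of the tip, pure algebra
-/

set_option autoImplicit false
open Set Filter Topology

noncomputable section

namespace Crest.Agent.N250.Gi.T

open B1

/-- `η = r² X²` at the cut -/
def eta (X : ℝ) (α : ℂ) : ℂ := 2 * et α X * (X : ℂ) ^ 2

section adm

variable {K X : ℝ} {α : ℂ}

theorem adm_norm (h : Adm K X α) (hK : 0 ≤ K) : ‖α * X ^ 2 / 2‖ ≤ 5 / 4 := by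
  have h1 := norm_add_le (α * X ^ 2 / 2 - 1 / 8) (1 / 8)
  rw [sub_add_cancel] at h1
  have h2 : ‖(1 / 8 : ℂ)‖ = 1 / 8 := by simp
  have h3 : 0 ≤ 2 * K / X ^ 2 := by positivity
  unfold Adm at h
  linarith

theorem et_eq (hX : X ≠ 0) (α : ℂ) :
    et α X = 1 + α * X ^ 2 / 2 * ((1 - 2 / X ^ 2 : ℝ) : ℂ) := by
  have : (X : ℂ) ≠ 0 := by exact_mod_cast hX
  unfold et
  push_cast
  field_simp

theorem adm_re (h : Adm K X α) (hX : 2 ≤ X) (hK : 2 * K ≤ X ^ 2) : 2 * K / X ^ 2 ≤ (et α X).re := by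
  have x0 : 0 < X ^ 2 := by positivity
  have h1 := Complex.abs_re_le_norm (α * X ^ 2 / 2 - 1 / 8)
  have h2 : (α * X ^ 2 / 2 - 1 / 8 : ℂ).re = (α * X ^ 2 / 2 : ℂ).re - 1 / 8 := by
    rw [Complex.sub_re]; norm_num
  have h3 : 2 / X ^ 2 ≤ 1 / 2 := by rw [div_le_iff₀ x0]; nlinarith
  have h4 : 2 * K / X ^ 2 ≤ 1 := (div_le_one x0).2 hK
  have h5 : 0 < 2 / X ^ 2 := by positivity
  rw [et_eq (by linarith), Complex.add_re, Complex.re_mul_ofReal, Complex.one_re]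
  unfold Adm at h
  rw [h2] at h1
  nlinarith [neg_abs_le ((α * X ^ 2 / 2 : ℂ).re - 1 / 8)]

theorem adm_le (h : Adm K X α) (hX : 2 ≤ X) (hK : 0 ≤ K) : ‖et α X‖ ≤ 9 / 4 := by
  have x0 : 0 < X ^ 2 := by positivity
  have h3 : 2 / X ^ 2 ≤ 1 / 2 := by rw [div_le_iff₀ x0]; nlinarith
  have h5 : 0 < 2 / X ^ 2 := by positivity
  rw [et_eq (by linarith)]
  refine (norm_add_le _ _).trans ?_
  rw [norm_mul, Complex.norm_real, Real.norm_eq_abs, abs_of_nonneg (by linarith), norm_one]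
  nlinarith [adm_norm h hK, norm_nonneg (α * X ^ 2 / 2)]

theorem norm_log_le (z : ℂ) : ‖Complex.log z‖ ≤ |Real.log ‖z‖| + Real.pi := by
  refine (Complex.norm_le_abs_re_add_abs_im _).trans ?_
  rw [Complex.log_re, Complex.log_im]
  linarith [Complex.abs_arg_le_pi z]

theorem adm_lam (h : Adm K X α) (hX : 2 ≤ X) (hK : 2 * K ≤ X ^ 2) (hK1 : 1 ≤ K) :
    ‖Lam X α‖ ≤ 2 * Real.log (X ^ 2) + Real.pi := by
  have x0 : 0 < X ^ 2 := by positivity
  have l0 : 0 ≤ Real.log (X ^ 2) := Real.log_nonneg (by nlinarith)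
  have h1 : (X ^ 2)⁻¹ ≤ ‖et α X‖ := by
    refine le_trans ?_ ((adm_re h hX hK).trans (Complex.re_le_norm _))
    rw [inv_eq_one_div]
    exact div_le_div_of_nonneg_right (by linarith) x0.le
  have h2 : ‖et α X‖ ≤ X ^ 2 := (adm_le h hX (by linarith)).trans (by nlinarith)
  have h3 : |Real.log ‖et α X‖| ≤ Real.log (X ^ 2) := by
    refine abs_le.2 ⟨?_, Real.log_le_log ((inv_pos.2 x0).trans_le h1) h2⟩
    rw [← Real.log_inv]
    exact Real.log_le_log (inv_pos.2 x0) h1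
  refine (norm_sub_le _ _).trans ?_
  rw [Complex.norm_real, Real.norm_eq_abs, abs_of_nonneg l0]
  linarith [norm_log_le (et α X)]


theorem eta_re (X : ℝ) (α : ℂ) : (eta X α).re = 2 * (et α X).re * X ^ 2 := by
  have : eta X α = et α X * ((2 * X ^ 2 : ℝ) : ℂ) := by unfold eta; push_cast; ring
  rw [this, Complex.re_mul_ofReal]; ring

theorem adm_eta (h : Adm K X α) (hX : 2 ≤ X) (hK : 2 * K ≤ X ^ 2) : 4 * K ≤ (eta X α).re := by
  have x0 : 0 < X ^ 2 := by positivity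
  have := adm_re h hX hK
  rw [div_le_iff₀ x0] at this
  rw [eta_re]; linarith


end adm

section tip

variable {X θ Q c : ℝ} {α a u : ℂ}






end tip

end Crest.Agent.N250.Gi.T

end
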