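import Mathlib
import Crest.Agent.N250.B2.Defs2
import Crest.Agent.N250.Gi.Defs
import Crest.Agent.N250.HJ.Main
import Crest.Agent.N250.B1.Reg
import Crest.Agent.N250.Gi.Tip

-- ▼ part N250/Hk/Int
section

/-!
# Row 250 (helper11): the Hankel integral `∫ e^{iλs} (a+is)^{-(n+2)} ds = 2π λ^{n+1} e^{-aλ}/(n+1)!`
-/

set_option autoImplicit false
open Set Filter Topology Complex MeasureTheory
open scoped Real Nat FourierTransform

noncomputable section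

namespace Crest.Agent.N250.Hk

theorem norm_pow_exp (n : ℕ) (c : ℂ) {x : ℝ} (hx : 0 ≤ x) :
    ‖(x : ℂ) ^ n * exp (-c * x)‖ = x ^ n * Real.exp (-c.re * x) := by
  rw [norm_mul, norm_pow, norm_exp, Complex.norm_real, Real.norm_of_nonneg hx]
  simp

theorem integrableOn_pow_exp (n : ℕ) {c : ℂ} (hc : 0 < c.re) :
    IntegrableOn (fun x : ℝ => (x : ℂ) ^ n * exp (-c * x)) (Ioi 0) := by
  have h := integrableOn_rpow_mul_exp_neg_mul_rpow (p := 1) (s := n)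
    (by linarith [(Nat.cast_nonneg n : (0 : ℝ) ≤ n)]) one_pos hc
  refine Integrable.mono' h (Continuous.aestronglyMeasurable (by fun_prop)) ?_
  refine (ae_restrict_iff' measurableSet_Ioi).2 (Eventually.of_forall fun x hx => ?_)
  rw [norm_pow_exp n c (le_of_lt hx)]
  simp

theorem tendsto_pow_exp (n : ℕ) {c : ℂ} (hc : 0 < c.re) :
    Tendsto (fun x : ℝ => (x : ℂ) ^ n * exp (-c * x)) atTop (𝓝 0) := by
  have h := ((Real.tendsto_pow_mul_exp_neg_atTop_nhds_zero n).comp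
    (tendsto_id.const_mul_atTop hc)).div_const (c.re ^ n)
  rw [zero_div] at h
  refine squeeze_zero_norm' ((eventually_ge_atTop 0).mono fun x hx => le_of_eq ?_) h
  rw [norm_pow_exp n c hx]
  simp only [Function.comp, id, mul_pow, neg_mul]
  field_simp

theorem laplace_pow (n : ℕ) {c : ℂ} (hc : 0 < c.re) :
    ∫ x : ℝ in Ioi 0, (x : ℂ) ^ n * exp (-c * x) = n ! / c ^ (n + 1) := by
  have hc0 : c ≠ 0 := fun h => by simp [h] at hc
  induction n with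
  | zero =>
    have := integral_exp_mul_complex_Ioi (a := -c) (by simpa using hc) 0
    simpa [neg_div_neg_eq] using this
  | succ n ih =>
    have hd : ∀ x ∈ Ici (0 : ℝ), HasDerivAt (fun x : ℝ => (x : ℂ) ^ (n + 1) * exp (-c * x))
        (((n : ℂ) + 1) * ((x : ℂ) ^ n * exp (-c * x)) - c * ((x : ℂ) ^ (n + 1) * exp (-c * x)))
        x := fun x _ => by
      have h1 := ((hasDerivAt_pow (n + 1) (x : ℂ)).fun_mul
        ((hasDerivAt_id' (x : ℂ)).const_mul (-c)).cexp).comp_ofReal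
      refine h1.congr_deriv ?_
      simp only [Nat.add_sub_cancel]
      push_cast
      ring
    have h2 := integral_Ioi_of_hasDerivAt_of_tendsto' hd
      (((integrableOn_pow_exp n hc).const_mul _).sub ((integrableOn_pow_exp (n + 1) hc).const_mul _))
      (tendsto_pow_exp (n + 1) hc)
    rw [integral_sub ((integrableOn_pow_exp n hc).const_mul _)
      ((integrableOn_pow_exp (n + 1) hc).const_mul _), integral_const_mul, integral_const_mul,
      ih] at h2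
    simp only [ofReal_zero, ne_eq, Nat.add_eq_zero_iff, one_ne_zero, and_false, not_false_eq_true,
      zero_pow, zero_mul, sub_zero] at h2
    rw [eq_div_iff (pow_ne_zero _ hc0), Nat.factorial_succ]
    push_cast
    have h3 := sub_eq_zero.1 h2
    rw [← mul_div_assoc, div_eq_iff (pow_ne_zero _ hc0)] at h3
    rw [pow_succ c (n + 1)]
    linear_combination -h3

theorem integrable_inv_pow (n : ℕ) {a : ℝ} (ha : 0 < a) :
    Integrable fun s : ℝ => ((a + s * I : ℂ) ^ (n + 2))⁻¹ := by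
  have hne : ∀ s : ℝ, (a + s * I : ℂ) ≠ 0 := fun s h => ha.ne' (by simpa using congrArg re h)
  refine Integrable.mono'
    ((integrable_inv_one_add_sq.comp_mul_left' (inv_ne_zero ha.ne')).const_mul (a ^ (n + 2))⁻¹)
    (Continuous.aestronglyMeasurable (Continuous.inv₀ (by fun_prop)
      fun s => pow_ne_zero _ (hne s))) (Eventually.of_forall fun s => ?_)
  have h1 : a ≤ ‖(a + s * I : ℂ)‖ := by simpa using re_le_norm (a + s * I : ℂ)
  have h2 : ‖(a + s * I : ℂ)‖ ^ 2 = a ^ 2 + s ^ 2 := by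
    rw [Complex.sq_norm, Complex.normSq_add_mul_I]
  rw [norm_inv, norm_pow, ← mul_inv]
  refine inv_anti₀ (by positivity) ?_
  rw [pow_add, pow_add, h2, mul_assoc]
  refine mul_le_mul (pow_le_pow_left₀ ha.le h1 n) (le_of_eq ?_) (by positivity) (by positivity)
  field_simp

/-- the Hankel integral -/
theorem hankel (n : ℕ) {a l : ℝ} (ha : 0 < a) (hl : 0 < l) :
    ∫ s : ℝ, exp (l * s * I) * ((a + s * I : ℂ) ^ (n + 2))⁻¹ =
      (2 * π * l ^ (n + 1) * Real.exp (-(a * l)) / (n + 1)! : ℝ) := by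
  set f : ℝ → ℂ := fun x => ((max x 0 : ℝ) : ℂ) ^ (n + 1) * exp (-a * (max x 0 : ℝ)) with hf
  have hfc : Continuous f := by fun_prop
  have hind : f = indicator (Ioi 0) fun x : ℝ => (x : ℂ) ^ (n + 1) * exp (-a * x) := by
    funext x
    by_cases hx : 0 < x
    · simp [hf, indicator, hx, max_eq_left hx.le]
    · simp [hf, indicator, hx, max_eq_right (not_lt.1 hx)]
  have hfi : Integrable f := by
    rw [hind, integrable_indicator_iff measurableSet_Ioi]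
    exact integrableOn_pow_exp (n + 1) (c := a) (by simpa using ha)
  have hF : 𝓕 f = fun ξ : ℝ => ((n + 1)! : ℂ) * ((a + ((2 * π * ξ : ℝ) : ℂ) * I) ^ (n + 2))⁻¹ := by
    funext ξ
    rw [Real.fourier_real_eq_integral_exp_smul, ← div_eq_mul_inv,
      ← laplace_pow (n + 1) (c := a + ((2 * π * ξ : ℝ) : ℂ) * I) (by simpa using ha),
      ← integral_indicator measurableSet_Ioi, hind]
    refine integral_congr_ae (Eventually.of_forall fun x => ?_)
    by_cases hx : 0 < x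
    · simp only [indicator, mem_Ioi, hx, if_true, smul_eq_mul]
      rw [mul_left_comm, ← exp_add]
      congr 2
      push_cast
      ring
    · simp [indicator, hx]
  have hFi : Integrable (𝓕 f) := by
    rw [hF]
    exact ((integrable_inv_pow n ha).comp_mul_left' Real.two_pi_pos.ne').const_mul _
  have h1 := hfi.fourierInv_fourier_eq hFi (hfc.continuousAt (x := l))
  rw [Real.fourierInv_eq', hF] at h1
  have h2 := Measure.integral_comp_mul_left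
    (fun s : ℝ => exp (l * s * I) * ((a + s * I : ℂ) ^ (n + 2))⁻¹) (2 * π)
  have h3 : ∫ v : ℝ, exp (((2 * π * inner ℝ v l : ℝ) : ℂ) * I) •
      (((n + 1)! : ℂ) * ((a + ((2 * π * v : ℝ) : ℂ) * I) ^ (n + 2))⁻¹) =
      ((n + 1)! : ℂ) * ∫ v : ℝ, exp (l * ((2 * π * v : ℝ) : ℂ) * I) *
        ((a + ((2 * π * v : ℝ) : ℂ) * I) ^ (n + 2))⁻¹ := by
    rw [← integral_const_mul]
    refine integral_congr_ae (Eventually.of_forall fun v => ?_)
    simp only [smul_eq_mul, RCLike.inner_apply, conj_trivial]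
    rw [mul_left_comm]
    congr 3
    push_cast
    ring
  rw [h3, h2, abs_of_pos (inv_pos.2 Real.two_pi_pos), real_smul] at h1
  simp only [hf, max_eq_left hl.le] at h1
  have hn : ((n + 1)! : ℂ) ≠ 0 := by exact_mod_cast (n + 1).factorial_ne_zero
  have hπ : (π : ℂ) ≠ 0 := by exact_mod_cast Real.pi_ne_zero
  push_cast at h1 ⊢
  rw [eq_div_iff hn]
  generalize (∫ s : ℝ, exp (l * s * I) * ((a + s * I : ℂ) ^ (n + 2))⁻¹) = J at h1 ⊢
  rw [neg_mul] at h1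
  rw [mul_assoc (2 * π : ℂ), ← h1]
  field_simp

/-- Stirling, upper bound -/
theorem factorial_le {m : ℕ} (hm : 1 ≤ m) :
    (m ! : ℝ) ≤ Real.exp 1 * √m * (m / Real.exp 1) ^ m := by
  obtain ⟨k, rfl⟩ := Nat.exists_eq_add_of_le' hm
  have h := Stirling.stirlingSeq'_antitone (Nat.zero_le k)
  simp only [Function.comp, Nat.succ_eq_add_one, zero_add, Stirling.stirlingSeq_one] at h
  rw [Stirling.stirlingSeq, div_le_iff₀ (by positivity), Real.sqrt_mul zero_le_two] at h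
  refine h.trans (le_of_eq ?_)
  field_simp

end Crest.Agent.N250.Hk

end
end

-- ▼ part N250/Hk/Prof
section

/-!
# Row 250 (helper11): the profile lemma

`ph M u = √K (K + 2u)^{-M}`, `K = 8M`; `mj A M s = A / (1 + s²/(128 M))`.
-/

set_option autoImplicit false
open Set Filter Topology Complex MeasureTheory
open scoped Real Nat

noncomputable section

namespace Crest.Agent.N250.Hk

/-- the profile -/
def ph (M : ℕ) (u : ℂ) : ℂ := (√(8 * M) : ℝ) * ((8 * M + 2 * u) ^ M)⁻¹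

/-- the majorant of the error -/
def mj (A : ℝ) (M : ℕ) (s : ℝ) : ℝ := A * (1 + s ^ 2 / (128 * M))⁻¹

/-- the amplitude of the majorant -/
def amp (C₀ : ℝ) (M : ℕ) : ℝ :=
  Real.exp 8 * (2 * C₀ + 11) * (√(8 * M) * (((8 * M : ℝ)) ^ M)⁻¹) * (4 / √M)

theorem ph_val (n : ℕ) {d : ℝ} (hd : -1 ≤ d) :
    ∫ s : ℝ, exp ((s / 4 : ℝ) * I) * ph (n + 2) (d + s * I) =
      (√(8 * (n + 2 : ℕ)) * (2 ^ (n + 2))⁻¹ * (2 * π * (1 / 4) ^ (n + 1) *
        Real.exp (-((4 * (n + 2 : ℕ) + d) * (1 / 4))) / (n + 1)!) : ℝ) := by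
  have ha : (0 : ℝ) < 4 * (n + 2 : ℕ) + d := by
    push_cast
    linarith [(Nat.cast_nonneg n : (0 : ℝ) ≤ n)]
  rw [ofReal_mul, ← hankel n ha (l := 1 / 4) (by norm_num), ← integral_const_mul]
  refine integral_congr_ae (Eventually.of_forall fun s => ?_)
  have e : (8 * ((n + 2 : ℕ) : ℂ) + 2 * (d + s * I)) =
      2 * (((4 * (n + 2 : ℕ) + d : ℝ) : ℂ) + s * I) := by push_cast; ring
  have e2 : ((s / 4 : ℝ) : ℂ) * I = ((1 / 4 : ℝ) : ℂ) * s * I := by push_cast; ring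
  simp only [ph, e, e2, mul_pow, mul_inv]
  push_cast
  ring

theorem ph_pos {M : ℕ} (hM : 2 ≤ M) {d : ℝ} (hd : -1 ≤ d) :
    0 ≤ (∫ s : ℝ, exp ((s / 4 : ℝ) * I) * ph M (d + s * I)).re := by
  obtain ⟨n, rfl⟩ := Nat.exists_eq_add_of_le' hM
  rw [ph_val n hd, ofReal_re]
  positivity

theorem ph_low {M : ℕ} (hM : 2 ≤ M) : 8 * (√(8 * M) * (((8 * M : ℝ)) ^ M)⁻¹) * √M ≤
    (∫ s : ℝ, exp ((s / 4 : ℝ) * I) * ph M (s * I)).re := by
  obtain ⟨n, rfl⟩ := Nat.exists_eq_add_of_le' hM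
  have h := ph_val n (d := 0) (by norm_num)
  simp only [ofReal_zero, zero_add, add_zero] at h
  rw [h, ofReal_re]
  have h1 := factorial_le (m := n + 2) (by omega)
  rw [Nat.factorial_succ (n + 1), Nat.cast_mul] at h1
  set m : ℝ := ((n + 2 : ℕ) : ℝ) with hm
  have hm0 : 0 < m := by positivity
  have hf : (0 : ℝ) < (n + 1)! := by exact_mod_cast (n + 1).factorial_pos
  have hs : √m * √m = m := Real.mul_self_sqrt hm0.le
  have hs0 : 0 < √m := Real.sqrt_pos.2 hm0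
  have he : Real.exp (-(4 * m * (1 / 4))) = (Real.exp 1 ^ (n + 2))⁻¹ := by
    rw [← Real.exp_nat_mul, ← Real.exp_neg]
    congr 1
    ring
  have he0 := Real.exp_pos 1
  have h2 : √m * (n + 1)! * Real.exp 1 ^ (n + 2) ≤ π * m ^ (n + 2) := by
    rw [div_pow, ← mul_div_assoc, le_div_iff₀ (by positivity)] at h1
    have h3 : Real.exp 1 ≤ π := by linarith [Real.exp_one_lt_d9, Real.pi_gt_three]
    refine le_of_mul_le_mul_left ?_ hs0
    calc √m * (√m * (n + 1)! * Real.exp 1 ^ (n + 2)) = m * (n + 1)! * Real.exp 1 ^ (n + 2) := by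
          rw [← mul_assoc, ← mul_assoc, hs]
      _ ≤ Real.exp 1 * √m * m ^ (n + 2) := h1
      _ ≤ π * √m * m ^ (n + 2) := by gcongr
      _ = _ := by ring
  rw [he, mul_comm 8, mul_assoc, mul_assoc, mul_assoc]
  refine mul_le_mul_of_nonneg_left ?_ (Real.sqrt_nonneg _)
  have e8 : (8 * m) ^ (n + 2) = 2 ^ (n + 2) * (4 ^ (n + 1) * 4 * m ^ (n + 2)) := by
    rw [show (8 : ℝ) * m = 2 * (4 * m) by ring, mul_pow, mul_pow, pow_succ (4 : ℝ) (n + 1)]
  rw [e8, mul_inv, mul_assoc]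
  refine mul_le_mul_of_nonneg_left ?_ (by positivity)
  rw [inv_mul_eq_div, div_le_div_iff₀ (by positivity) hf, one_div, inv_pow]
  field_simp
  linarith

theorem mj_eq {M : ℕ} (hM : 0 < M) (A : ℝ) :
    mj A M = fun s => A * (1 + ((√(128 * M))⁻¹ * s) ^ 2)⁻¹ := by
  funext s
  rw [mj, mul_pow, inv_pow, Real.sq_sqrt (by positivity), inv_mul_eq_div]

theorem mj_integrable {M : ℕ} (hM : 0 < M) (A : ℝ) : Integrable (mj A M) := by
  rw [mj_eq hM]
  exact (integrable_inv_one_add_sq.comp_mul_left' (by positivity)).const_mul A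

theorem mj_integral {M : ℕ} (hM : 0 < M) (A : ℝ) : ∫ s, mj A M s = A * (√(128 * M) * π) := by
  rw [mj_eq hM, integral_const_mul,
    Measure.integral_comp_mul_left (fun x : ℝ => (1 + x ^ 2)⁻¹), integral_univ_inv_one_add_sq,
    inv_inv, abs_of_nonneg (Real.sqrt_nonneg _), smul_eq_mul]

theorem mj_continuous (A : ℝ) (M : ℕ) : Continuous (mj A M) :=
  continuous_const.mul (Continuous.inv₀ (by fun_prop) fun s => by positivity)

theorem mj_nonneg {A : ℝ} (hA : 0 ≤ A) (M : ℕ) (s : ℝ) : 0 ≤ mj A M s := by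
  unfold mj
  positivity

theorem mj_le {A : ℝ} (hA : 0 ≤ A) {M : ℕ} (hM : 0 < M) (s : ℝ) :
    mj A M s ≤ A * (256 * M) / (1 + |s|) ^ 2 := by
  have hM' : (1 : ℝ) ≤ M := by exact_mod_cast hM
  rw [mj, mul_div_assoc]
  refine mul_le_mul_of_nonneg_left ?_ hA
  rw [inv_eq_one_div, div_le_div_iff₀ (by positivity) (by positivity), ← sq_abs s]
  have : 256 * (M : ℝ) * (1 + |s| ^ 2 / (128 * M)) = 256 * M + 2 * |s| ^ 2 := by
    field_simp
    ring
  rw [this]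
  nlinarith [sq_nonneg (|s| - 1)]

theorem normSq_w (K : ℝ) (u : ℂ) : ‖(K + 2 * u : ℂ)‖ ^ 2 = K ^ 2 + 4 * K * u.re + 4 * ‖u‖ ^ 2 := by
  rw [Complex.sq_norm, Complex.sq_norm, normSq_apply, normSq_apply]
  simp
  ring

theorem norm_w_ge {M : ℕ} (hM : 1 ≤ M) {u : ℂ} (hu : -1 ≤ u.re) :
    1 + ‖u‖ ≤ ‖(8 * M + 2 * u : ℂ)‖ := by
  have hM' : (1 : ℝ) ≤ M := by exact_mod_cast hM
  have h := normSq_w (8 * M) u
  push_cast at h
  refine abs_le_of_sq_le_sq' ?_ (norm_nonneg _) |>.2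
  rw [h]
  nlinarith [sq_nonneg (‖u‖ - 1), mul_le_mul_of_nonneg_left hu (show (0 : ℝ) ≤ 32 * M by positivity)]

theorem ph_le {M : ℕ} (hM : 2 ≤ M) {u : ℂ} (hu : -1 ≤ u.re) :
    ‖ph M u‖ ≤ √(8 * M) / (1 + ‖u‖) ^ 2 := by
  have h := norm_w_ge (M := M) (by omega) hu
  have h1 : 1 ≤ 1 + ‖u‖ := by linarith [norm_nonneg u]
  rw [ph, norm_mul, norm_inv, norm_pow, Complex.norm_real, Real.norm_of_nonneg (Real.sqrt_nonneg _),
    div_eq_mul_inv]
  refine mul_le_mul_of_nonneg_left (inv_anti₀ (by positivity) ?_) (Real.sqrt_nonneg _)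
  exact (pow_le_pow_left₀ (by positivity) h 2).trans (pow_le_pow_right₀ (h1.trans h) hM)

theorem ph_contOn {M : ℕ} (hM : 1 ≤ M) : ContinuousOn (ph M) {u | -1 ≤ u.re} := by
  refine continuousOn_const.mul (ContinuousOn.inv₀ (by fun_prop) fun u hu => pow_ne_zero _ ?_)
  refine norm_pos_iff.1 (lt_of_lt_of_le ?_ (norm_w_ge hM hu))
  positivity


theorem norm_log_sub_le {K : ℝ} (hK : 0 < K) {η : ℂ} (h1 : K / 2 ≤ ‖η‖) (h2 : 0 < η.re) :
    ‖log η - log K‖ ≤ 3 / K * ‖η - K‖ := by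
  have hs : ∀ p ∈ segment ℝ (K : ℂ) η, 0 < p.re ∧ K / 3 ≤ ‖p‖ := by
    rintro p ⟨a, b, ha, hb, hab, rfl⟩
    have e1 : (a • (K : ℂ) + b • η).re = a * K + b * η.re := by simp
    refine ⟨?_, abs_le_of_sq_le_sq' ?_ (norm_nonneg _) |>.2⟩
    · rw [e1]
      rcases ha.eq_or_lt with rfl | ha'
      · rw [zero_add] at hab
        simpa [hab] using h2
      · positivity
    · have e2 : ‖a • (K : ℂ) + b • η‖ ^ 2 = (a * K) ^ 2 + 2 * (a * K) * (b * η.re) +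
          b ^ 2 * ‖η‖ ^ 2 := by
        rw [Complex.sq_norm, Complex.sq_norm, normSq_apply, normSq_apply]
        simp
        ring
      have e3 : (K / 2) ^ 2 ≤ ‖η‖ ^ 2 := pow_le_pow_left₀ (by positivity) h1 2
      have e4 : 0 ≤ 2 * (a * K) * (b * η.re) := by positivity
      have e5 := mul_le_mul_of_nonneg_left e3 (sq_nonneg b)
      have e6 : 1 / 9 ≤ a ^ 2 + b ^ 2 / 4 := by nlinarith [sq_nonneg (a - 1 / 5)]
      have e7 := mul_le_mul_of_nonneg_left e6 (sq_nonneg K)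
      rw [e2]
      nlinarith
  refine Convex.norm_image_sub_le_of_norm_hasDerivWithin_le (f := log) (f' := fun p => p⁻¹)
    (fun p hp => (hasDerivAt_log (Or.inl (hs p hp).1)).hasDerivWithinAt) (fun p hp => ?_)
    (convex_segment _ _) (left_mem_segment _ _ _) (right_mem_segment _ _ _)
  rw [norm_inv, ← inv_div]
  exact inv_anti₀ (by positivity) (hs p hp).2

theorem norm_pow_sub_le {a b : ℂ} {t : ℝ} (ha : ‖a‖ ≤ t) (hb : ‖b‖ ≤ t) (n : ℕ) :
    ‖a ^ n - b ^ n‖ * t ≤ n * ‖a - b‖ * t ^ n := by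
  have ht : 0 ≤ t := (norm_nonneg _).trans ha
  induction n with
  | zero => simp
  | succ n ih =>
    have e : a ^ (n + 1) - b ^ (n + 1) = a * (a ^ n - b ^ n) + (a - b) * b ^ n := by ring
    have h1 : ‖a ^ (n + 1) - b ^ (n + 1)‖ ≤ t * ‖a ^ n - b ^ n‖ + ‖a - b‖ * t ^ n := by
      rw [e]
      refine (norm_add_le _ _).trans (add_le_add ?_ ?_)
      · rw [norm_mul]; gcongr
      · rw [norm_mul, norm_pow]; gcongr
    have h2 := mul_le_mul_of_nonneg_right h1 ht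
    have h3 := mul_le_mul_of_nonneg_left ih ht
    push_cast
    rw [pow_succ t n]
    linarith

theorem norm_sqrt_sub_le {K : ℝ} (hK : 0 < K) (η : ℂ) :
    ‖η ^ (1 / 2 : ℂ) - (√K : ℝ)‖ ≤ ‖η - K‖ / √K := by
  have hs := Real.sqrt_pos.2 hK
  have h1 : (η ^ (1 / 2 : ℂ)) ^ 2 = η := by
    rw [one_div]
    exact_mod_cast cpow_nat_inv_pow η two_ne_zero
  have h2 : 0 ≤ (η ^ (1 / 2 : ℂ)).re := by
    rw [one_div, cpow_inv_two_re]
    exact Real.sqrt_nonneg _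
  have h3 : √K ≤ ‖η ^ (1 / 2 : ℂ) + (√K : ℝ)‖ := by
    refine le_trans ?_ (re_le_norm _)
    simpa using h2
  have h4 : (η ^ (1 / 2 : ℂ) - (√K : ℝ)) * (η ^ (1 / 2 : ℂ) + (√K : ℝ)) = η - K := by
    have : ((√K : ℝ) : ℂ) ^ 2 = K := by exact_mod_cast Real.sq_sqrt hK.le
    linear_combination h1 - this
  rw [le_div_iff₀ hs, ← h4, norm_mul]
  exact mul_le_mul_of_nonneg_left h3 (norm_nonneg _)

theorem exp_le_one_sub_pow {M : ℕ} (hM : 8 ≤ M) : Real.exp (-8) ≤ (1 - 30 / (8 * M : ℝ)) ^ M := by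
  have hM' : (8 : ℝ) ≤ M := by exact_mod_cast hM
  set t : ℝ := 30 / (8 * M) with ht
  have h0 : 0 ≤ t := by positivity
  have h1 : t ≤ 1 / 2 := by rw [ht, div_le_iff₀ (by positivity)]; linarith
  have h2 : Real.exp (-(2 * t)) ≤ 1 - t := by
    rw [Real.exp_neg, inv_le_comm₀ (Real.exp_pos _) (by linarith)]
    refine le_trans ?_ (Real.add_one_le_exp _)
    rw [inv_le_iff_one_le_mul₀ (by linarith)]
    nlinarith
  refine le_trans ?_ (pow_le_pow_left₀ (Real.exp_pos _).le h2 M)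
  rw [← Real.exp_nat_mul]
  refine Real.exp_le_exp.2 ?_
  have : (M : ℝ) * -(2 * t) = -(15 / 2) := by rw [ht]; field_simp; ring
  linarith

theorem decay {M : ℕ} (hM : 8 ≤ M) {x σ : ℝ} (hσ : σ ^ 2 ≤ x ^ 2) :
    (2 / √M + x) * (√(1 + x ^ 2) ^ M)⁻¹ ≤ 4 / √M * (1 + M * σ ^ 2 / 8)⁻¹ := by
  have hM' : (8 : ℝ) ≤ M := by exact_mod_cast hM
  have hr : 0 < √(M : ℝ) := Real.sqrt_pos.2 (by linarith)
  have hr2 : √(M : ℝ) ^ 2 = M := Real.sq_sqrt (by linarith)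
  have hk : (M : ℝ) / 8 ≤ (M / 4 : ℕ) := by
    have : M ≤ 8 * (M / 4) := by omega
    have : (M : ℝ) ≤ 8 * (M / 4 : ℕ) := by exact_mod_cast this
    linarith
  have hq : 1 ≤ √(1 + x ^ 2) := Real.one_le_sqrt.2 (by nlinarith)
  have h1 : 1 + M * x ^ 2 / 8 ≤ (1 + x ^ 2) ^ (M / 4) := by
    refine le_trans ?_ (one_add_mul_le_pow (by nlinarith) _)
    nlinarith [mul_le_mul_of_nonneg_right hk (sq_nonneg x)]
  have h2 : (1 + M * x ^ 2 / 8) * (1 + M * σ ^ 2 / 8) ≤ √(1 + x ^ 2) ^ M := by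
    calc _ ≤ (1 + x ^ 2) ^ (M / 4) * (1 + x ^ 2) ^ (M / 4) := by
          refine mul_le_mul h1 (le_trans ?_ h1) (by positivity) (by positivity)
          gcongr
      _ = √(1 + x ^ 2) ^ (4 * (M / 4)) := by
          rw [← pow_add, show 4 * (M / 4) = 2 * (M / 4 + M / 4) by ring, pow_mul,
            Real.sq_sqrt (by positivity)]
      _ ≤ _ := pow_le_pow_right₀ hq (by omega)
  have h3 : 2 / √M + x ≤ 4 / √M * (1 + M * x ^ 2 / 8) := by
    rw [div_add' _ _ _ hr.ne', div_mul_eq_mul_div]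
    refine div_le_div_of_nonneg_right ?_ hr.le
    nlinarith [sq_nonneg (x * √M - 1)]
  calc _ ≤ (4 / √M * (1 + M * x ^ 2 / 8)) * ((1 + M * x ^ 2 / 8) * (1 + M * σ ^ 2 / 8))⁻¹ := by
        gcongr
    _ = _ := by field_simp

set_option maxHeartbeats 1000000 in
/-- the bridge from the far datum `η` to the profile variable `u` -/
theorem bridge {M : ℕ} (hM : 8 ≤ M) {C₀ : ℝ} (hC : 0 ≤ C₀) {u η z : ℂ} (hu : -1 ≤ u.re)
    (h1 : 4 * M ≤ ‖η‖) (h2 : 0 < η.re)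
    (hP : ‖η - 4 * log η - (8 * M - 4 * log (8 * M)) - 2 * u‖ ≤ 1 / √M)
    (hz : ‖z - η ^ (1 / 2 : ℂ) * (η ^ M)⁻¹‖ ≤ C₀ * (√‖η‖ * (‖η‖ ^ M)⁻¹) / M) :
    ‖z - ph M u‖ ≤ mj (amp C₀ M) M u.im := by
  have hM' : (8 : ℝ) ≤ M := by exact_mod_cast hM
  set K : ℝ := 8 * M with hK
  have hK0 : 0 < K := by positivity
  have hK64 : 64 ≤ K := by linarith
  have hKc : (8 * M : ℂ) = K := by rw [hK]; push_cast; ring
  have hr : 0 < √(M : ℝ) := Real.sqrt_pos.2 (by linarith)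
  have hr1 : 1 ≤ √(M : ℝ) := Real.one_le_sqrt.2 (by linarith)
  have hr2 : √(M : ℝ) * √(M : ℝ) = M := Real.mul_self_sqrt (by linarith)
  have hs : 0 < √K := Real.sqrt_pos.2 hK0
  have hs2 : √K * √K = K := Real.mul_self_sqrt hK0.le
  rw [hKc] at hP
  set th : ℝ := 1 / √M with hth
  have hth0 : 0 < th := by positivity
  have hth1 : th ≤ 1 := by rw [hth, div_le_one hr]; exact hr1
  have hMth : 1 / (M : ℝ) ≤ th := by
    rw [hth]; exact one_div_le_one_div_of_le hr (by nlinarith)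
  set x : ℝ := 2 * ‖u‖ / K with hx
  have hx0 : 0 ≤ x := by positivity
  have hxK : 2 * ‖u‖ = K * x := by rw [hx]; field_simp
  set q : ℝ := √(1 + x ^ 2) with hq
  have hq2 : q ^ 2 = 1 + x ^ 2 := Real.sq_sqrt (by positivity)
  have hq1 : 1 ≤ q := Real.one_le_sqrt.2 (by nlinarith)
  have hqx : x ≤ q := Real.le_sqrt_of_sq_le (by linarith)
  have hqx' : q ≤ 1 + x := Real.sqrt_le_iff.2 ⟨by positivity, by nlinarith⟩
  set w : ℂ := K + 2 * u with hw
  have a1 : ‖η - K‖ ≤ K * x + ‖η - w‖ := by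
    have : η - K = 2 * u + (η - w) := by rw [hw]; ring
    rw [this, ← hxK]
    refine (norm_add_le _ _).trans (le_of_eq ?_)
    simp
  have a2 : ‖η - w‖ ≤ 24 * x + 2 * th := by
    have e : η - w = (η - 4 * log η - (K - 4 * log K) - 2 * u) + 4 * (log η - log K) := by
      rw [hw]; ring
    have b1 := norm_log_sub_le hK0 (η := η) (by linarith) h2
    have b2 : ‖η - w‖ ≤ th + 4 * (3 / K * (K * x + ‖η - w‖)) := by
      refine (le_of_eq (congrArg norm e)).trans ((norm_add_le _ _).trans (add_le_add hP ?_))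
      rw [norm_mul, Complex.norm_ofNat]
      exact mul_le_mul_of_nonneg_left (b1.trans (by gcongr)) (by norm_num)
    have b3 : 3 / K * (K * x + ‖η - w‖) = 3 * x + 3 / K * ‖η - w‖ := by field_simp
    have b4 : 3 / K ≤ 1 / 8 := by rw [div_le_div_iff₀ hK0 (by norm_num)]; linarith
    have b5 := mul_le_mul_of_nonneg_right b4 (norm_nonneg (η - w))
    linarith
  have a3 : ‖η - w‖ ≤ 26 * q := by linarith
  have a4 : q * (K - 4) ≤ ‖w‖ := by
    refine abs_le_of_sq_le_sq' ?_ (norm_nonneg _) |>.2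
    rw [hw, normSq_w, mul_pow, hq2, show 4 * ‖u‖ ^ 2 = (2 * ‖u‖) ^ 2 by ring, hxK]
    linarith [mul_le_mul_of_nonneg_left hu hK0.le,
      mul_nonneg (sq_nonneg x) (show 0 ≤ K - 2 by linarith)]
  have a5 : ‖w‖ ≤ K * (1 + x) := by
    refine (norm_add_le _ _).trans (le_of_eq ?_)
    rw [norm_mul, Complex.norm_ofNat, Complex.norm_real, Real.norm_of_nonneg hK0.le, hxK]
    ring
  set ρ : ℝ := q * (K - 30) with hρ
  have hρ0 : K - 30 ≤ ρ := le_mul_of_one_le_left (by linarith) hq1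
  have hρp : 0 < ρ := by linarith
  have a6 : ρ ≤ ‖w‖ := by rw [hρ]; linarith
  have a7 : ρ ≤ ‖η‖ := by
    have := norm_sub_norm_le w η
    rw [norm_sub_rev] at this
    rw [hρ]
    linarith
  have a8 : √‖η‖ ≤ 2 * √K * (1 + x) := by
    refine Real.sqrt_le_iff.2 ⟨by positivity, ?_⟩
    have := norm_sub_norm_le η w
    have e : (2 * √K * (1 + x)) ^ 2 = 4 * K * (1 + x) ^ 2 := by
      rw [mul_pow, mul_pow, Real.sq_sqrt hK0.le]; ring
    rw [e]
    have b1 : 26 * q ≤ K * (1 + x) := mul_le_mul (by linarith) hqx' (by linarith) hK0.le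
    have b2 : K * (1 + x) ≤ K * (1 + x) ^ 2 :=
      mul_le_mul_of_nonneg_left (le_self_pow₀ (by linarith) two_ne_zero) hK0.le
    have b3 : 0 ≤ K * (1 + x) ^ 2 := by positivity
    linarith
  set t : ℝ := (ρ ^ M)⁻¹ with ht
  have ht0 : 0 ≤ t := by positivity
  have c0 : (‖η‖ ^ M)⁻¹ ≤ t := inv_anti₀ (by positivity) (pow_le_pow_left₀ hρp.le a7 M)
  have c1 : ‖z - η ^ (1 / 2 : ℂ) * (η ^ M)⁻¹‖ ≤ √K * t * (2 * C₀ * (th + x)) := by
    refine hz.trans ?_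
    calc C₀ * (√‖η‖ * (‖η‖ ^ M)⁻¹) / M ≤ C₀ * (2 * √K * (1 + x) * t) / M := by gcongr
      _ = √K * t * (2 * C₀ * (1 / M + x * (1 / M))) := by ring
      _ ≤ _ := by
        gcongr
        exact mul_le_of_le_one_right hx0 (hMth.trans hth1)
  have c2 : ‖η ^ (1 / 2 : ℂ) * (η ^ M)⁻¹ - (√K : ℝ) * (η ^ M)⁻¹‖ ≤ √K * t * (5 * (th + x)) := by
    rw [← sub_mul, norm_mul, norm_inv, norm_pow]
    have b1 : ‖η - K‖ / √K ≤ √K * (5 * (th + x)) := by
      rw [div_le_iff₀ hs, mul_right_comm, hs2]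
      linarith [mul_nonneg (show 0 ≤ K - 64 by linarith) hx0,
        mul_nonneg (show 0 ≤ K - 64 by linarith) hth0.le]
    calc _ ≤ √K * (5 * (th + x)) * t :=
          mul_le_mul ((norm_sqrt_sub_le hK0 η).trans b1) c0 (by positivity) (by positivity)
      _ = _ := by ring
  have c3 : ‖(√K : ℝ) * (η ^ M)⁻¹ - (√K : ℝ) * (w ^ M)⁻¹‖ ≤ √K * t * (6 * (th + x)) := by
    rw [← mul_sub, norm_mul, Complex.norm_real, Real.norm_of_nonneg hs.le, mul_assoc, ← inv_pow,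
      ← inv_pow]
    refine mul_le_mul_of_nonneg_left ?_ hs.le
    have hη0 : η ≠ 0 := norm_pos_iff.1 (hρp.trans_le a7)
    have hw0 : w ≠ 0 := norm_pos_iff.1 (hρp.trans_le a6)
    have i1 : ‖η⁻¹‖ ≤ ρ⁻¹ := by rw [norm_inv]; exact inv_anti₀ hρp a7
    have i2 : ‖w⁻¹‖ ≤ ρ⁻¹ := by rw [norm_inv]; exact inv_anti₀ hρp a6
    have b1 := norm_pow_sub_le i1 i2 M
    have b2 : ‖η⁻¹ - w⁻¹‖ ≤ (24 * x + 2 * th) * ρ⁻¹ * ρ⁻¹ := by
      have : η⁻¹ - w⁻¹ = -(η - w) * η⁻¹ * w⁻¹ := by field_simp; ring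
      rw [this, norm_mul, norm_mul, norm_neg]
      gcongr
    have b3 : (M : ℝ) * ρ⁻¹ ≤ 1 / 4 := by
      rw [← div_eq_mul_inv, div_le_div_iff₀ hρp (by norm_num)]
      linarith
    rw [inv_pow ρ, ← ht] at b1
    refine le_of_mul_le_mul_right (b1.trans ?_) (inv_pos.2 hρp)
    calc _ ≤ M * ((24 * x + 2 * th) * ρ⁻¹ * ρ⁻¹) * t := by gcongr
      _ = (M * ρ⁻¹) * (24 * x + 2 * th) * t * ρ⁻¹ := by ring
      _ ≤ (1 / 4) * (24 * x + 24 * th) * t * ρ⁻¹ := by gcongr; norm_num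
      _ = _ := by ring
  have c4 : ‖z - ph M u‖ ≤ √K * t * ((2 * C₀ + 11) * (th + x)) := by
    have e : ph M u = (√K : ℝ) * (w ^ M)⁻¹ := by rw [ph, hKc]
    rw [e]
    have d1 := norm_sub_le_norm_sub_add_norm_sub z (η ^ (1 / 2 : ℂ) * (η ^ M)⁻¹)
      ((√K : ℝ) * (w ^ M)⁻¹)
    have d2 := norm_sub_le_norm_sub_add_norm_sub (η ^ (1 / 2 : ℂ) * (η ^ M)⁻¹)
      ((√K : ℝ) * (η ^ M)⁻¹) ((√K : ℝ) * (w ^ M)⁻¹)
    linarith
  have c5 : t ≤ Real.exp 8 * (K ^ M)⁻¹ * (q ^ M)⁻¹ := by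
    have e : ρ = (1 - 30 / K) * K * q := by rw [hρ]; field_simp
    rw [ht, e, mul_pow, mul_pow, mul_inv, mul_inv]
    gcongr
    rw [inv_le_comm₀ ((Real.exp_pos _).trans_le (exp_le_one_sub_pow hM)) (Real.exp_pos _),
      ← Real.exp_neg]
    exact exp_le_one_sub_pow hM
  have c6 := decay hM (x := x) (σ := 2 * u.im / K) (by
    rw [hx, div_pow, div_pow, mul_pow 2 u.im, mul_pow 2 ‖u‖, ← sq_abs u.im]
    gcongr
    exact abs_im_le_norm u)
  have e1 : (M : ℝ) * (2 * u.im / K) ^ 2 / 8 = u.im ^ 2 / (128 * M) := by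
    rw [hK]; field_simp; ring
  rw [e1] at c6
  have c7 : th + x ≤ 2 / √M + x := by rw [hth]; gcongr; norm_num
  calc _ ≤ √K * (Real.exp 8 * (K ^ M)⁻¹ * (q ^ M)⁻¹) * ((2 * C₀ + 11) * (2 / √M + x)) :=
        c4.trans (by gcongr)
    _ = Real.exp 8 * (2 * C₀ + 11) * (√K * (K ^ M)⁻¹) * ((2 / √M + x) * (q ^ M)⁻¹) := by ring
    _ ≤ Real.exp 8 * (2 * C₀ + 11) * (√K * (K ^ M)⁻¹) *
        (4 / √M * (1 + u.im ^ 2 / (128 * M))⁻¹) := by gcongr
    _ = _ := by rw [mj, amp]; ring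

theorem amp_nonneg {C₀ : ℝ} (hC : 0 ≤ C₀) (M : ℕ) : 0 ≤ amp C₀ M := by
  unfold amp
  positivity

/-- the main term beats `p` times the integrated error -/
theorem pos_gap (p : ℝ) {C₀ : ℝ} (hC : 0 ≤ C₀) : ∃ M₀ : ℕ, 8 ≤ M₀ ∧ ∀ M, M₀ ≤ M →
    p * ∫ s, mj (amp C₀ M) M s < (∫ s : ℝ, exp ((s / 4 : ℝ) * I) * ph M (s * I)).re := by
  set B : ℝ := |p| * (Real.exp 8 * (2 * C₀ + 11)) * (6 * π) with hB
  have hB0 : 0 ≤ B := by positivity
  obtain ⟨m, hm⟩ := exists_nat_gt (B ^ 2)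
  refine ⟨m + 8, by omega, fun M hM => lt_of_lt_of_le ?_ (ph_low (by omega))⟩
  have hM' : (m : ℝ) + 8 ≤ M := by exact_mod_cast hM
  have hm0 : (0 : ℝ) ≤ m := Nat.cast_nonneg m
  have hr : B < √M := Real.lt_sqrt_of_sq_lt (by linarith)
  have hr0 : 0 < √(M : ℝ) := hB0.trans_lt hr
  have h1 : √(128 * M) ≤ 12 * √(M : ℝ) := by
    refine Real.sqrt_le_iff.2 ⟨by positivity, ?_⟩
    rw [mul_pow, Real.sq_sqrt (by linarith)]
    linarith
  have hT : 0 < √(8 * M) * (((8 * M : ℝ)) ^ M)⁻¹ := by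
    have : (0 : ℝ) < M := by linarith
    positivity
  rw [mj_integral (by omega)]
  have hA := amp_nonneg hC M
  calc p * (amp C₀ M * (√(128 * M) * π)) ≤ |p| * (amp C₀ M * (12 * √M * π)) :=
        mul_le_mul (le_abs_self p) (by gcongr) (by positivity) (abs_nonneg p)
    _ = 8 * (√(8 * M) * (((8 * M : ℝ)) ^ M)⁻¹) * B := by
        rw [amp, hB]
        field_simp
        ring
    _ < _ := by gcongr

/-- **Profile lemma.** -/
theorem profile (p : ℝ) {C₀ : ℝ} (hC : 0 ≤ C₀) : ∃ M₀ : ℕ, 8 ≤ M₀ ∧ ∀ M, M₀ ≤ M →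
    ∃ (Mj : ℝ → ℝ) (C : ℝ), Continuous Mj ∧ Integrable Mj ∧ (∀ s, 0 ≤ Mj s) ∧
      (∀ s, Mj s ≤ C / (1 + |s|) ^ 2) ∧ ContinuousOn (ph M) {u | -1 ≤ u.re} ∧
      (∀ u : ℂ, -1 ≤ u.re → ‖ph M u‖ ≤ C / (1 + ‖u‖) ^ 2) ∧
      (∀ d : ℝ, 0 ≤ d → 0 ≤ (∫ s : ℝ, exp ((s / 4 : ℝ) * I) * ph M (d + s * I)).re) ∧
      p * ∫ s, Mj s < (∫ s : ℝ, exp ((s / 4 : ℝ) * I) * ph M (s * I)).re ∧
      ∀ u η z : ℂ, -1 ≤ u.re → 4 * M ≤ ‖η‖ → 0 < η.re →
        ‖η - 4 * log η - (8 * M - 4 * log (8 * M)) - 2 * u‖ ≤ 1 / √M →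
        ‖z - η ^ (1 / 2 : ℂ) * (η ^ M)⁻¹‖ ≤ C₀ * (√‖η‖ * (‖η‖ ^ M)⁻¹) / M →
        ‖z - ph M u‖ ≤ Mj u.im := by
  obtain ⟨M₀, h8, h⟩ := pos_gap p hC
  refine ⟨M₀, h8, fun M hM => ?_⟩
  have hA := amp_nonneg hC M
  have hM8 : 8 ≤ M := h8.trans hM
  refine ⟨mj (amp C₀ M) M, amp C₀ M * (256 * M) + √(8 * M), mj_continuous _ _,
    mj_integrable (by omega) _, mj_nonneg hA M, fun s => (mj_le hA (by omega) s).trans ?_,
    ph_contOn (by omega), fun u hu => (ph_le (by omega) hu).trans ?_,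
    fun d hd => ph_pos (by omega) (by linarith), h M hM,
    fun u η z a b c d e => bridge hM8 hC a b c d e⟩
  · gcongr
    exact le_add_of_nonneg_right (Real.sqrt_nonneg _)
  · gcongr
    exact le_add_of_nonneg_left (by positivity)

end Crest.Agent.N250.Hk

end
end

-- ▼ part N250/Hk/Ker
section

/-!
# Row 250 (helper11): the profile lemma in the form `B2.Ker`
-/

set_option autoImplicit false
open Complex

noncomputable section

namespace Crest.Agent.N250.Hk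

/-- `Ker` for the profile `ph M`, together with the bridge from the far datum `η = 2 V X²` -/
theorem ker (p : ℕ) {C₀ : ℝ} (hC : 0 ≤ C₀) : ∃ M₀ : ℕ, 8 ≤ M₀ ∧ ∀ M, M₀ ≤ M →
    ∃ (Mj : ℝ → ℝ) (C : ℝ), B2.Ker (ph M) Mj p C ∧
      ∀ u η z : ℂ, -1 ≤ u.re → 4 * M ≤ ‖η‖ → 0 < η.re →
        ‖η - 4 * log η - (8 * M - 4 * log (8 * M)) - 2 * u‖ ≤ 1 / √M →
        ‖z - η ^ (1 / 2 : ℂ) * (η ^ M)⁻¹‖ ≤ C₀ * (√‖η‖ * (‖η‖ ^ M)⁻¹) / M →
        ‖z - ph M u‖ ≤ Mj u.im := by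
  obtain ⟨M₀, h8, h⟩ := profile p hC
  refine ⟨M₀, h8, fun M hM => ?_⟩
  obtain ⟨Mj, C, a1, -, a3, a4, a5, a6, a7, a8, a9⟩ := h M hM
  exact ⟨Mj, C, ⟨a5, a6, a1, a3, a4, a7, a8⟩, a9⟩

theorem ker_mono {φ : ℂ → ℂ} {M : ℝ → ℝ} {p : ℕ} {C C' : ℝ} (h : B2.Ker φ M p C) (hC : C ≤ C') :
    B2.Ker φ M p C' :=
  ⟨h.cont, fun u hu => (h.dec u hu).trans (by gcongr), h.M_cont, h.M_nonneg,
    fun s => (h.M_le s).trans (by gcongr), h.pos0, h.pos⟩

end Crest.Agent.N250.Hk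

end
end

-- ▼ part N250/Hk/Tip
section

/-!
# Row 250 (helper11): tip algebra, the bounds `crude0`, `crude`, `sharp` for the normalised residual
-/

set_option autoImplicit false
set_option linter.unusedSectionVars false
open Set Filter Topology Complex
open scoped Real

noncomputable section

namespace Crest.Agent.N250.Hk

open B1 Gi

/-- the normalised Hamilton–Jacobi residual:
`e^{TL/4} (-2π R) / TL'(X) = (-π κ e^{c0/4}) * m0` -/
def m0 (N : ℕ) (X : ℝ) (V : ℂ) : ℂ :=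
  HJ.R N X V * (Real.exp (X ^ 2 / 4) * X ^ 3 / (HJ.kap N * (X ^ 2 + 4)) : ℝ)

/-- `η = 2 V X²` -/
def eta (X : ℝ) (p : ℂ) : ℂ := 2 * et p X * X ^ 2

theorem norm_log_le {ζ : ℂ} (h : 0 ≤ ζ.re) : ‖log ζ‖ ≤ |Real.log ‖ζ‖| + 2 := by
  refine (norm_le_abs_re_add_abs_im _).trans ?_
  rw [log_re, log_im]
  linarith [abs_arg_le_pi_div_two_iff.2 h, Real.pi_lt_four]

theorem split_norm {x : ℂ} {A B : ℝ} (hA : 0 ≤ A) (hB : 0 < B) (h : ‖x‖ ≤ A + B) :
    ∃ y : ℂ, ‖y‖ ≤ A ∧ ‖x - y‖ ≤ B := by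
  have h0 : 0 < A + B := by positivity
  refine ⟨(A / (A + B) : ℝ) * x, ?_, ?_⟩
  · rw [norm_mul, Complex.norm_real, Real.norm_of_nonneg (by positivity), div_mul_eq_mul_div,
      div_le_iff₀ h0]
    gcongr
  · have : x - (A / (A + B) : ℝ) * x = (B / (A + B) : ℝ) * x := by
      have : ((A : ℂ) + B) ≠ 0 := by exact_mod_cast h0.ne'
      push_cast
      field_simp
      ring
    rw [this, norm_mul, Complex.norm_real, Real.norm_of_nonneg (by positivity), div_mul_eq_mul_div,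
      div_le_iff₀ h0]
    gcongr

section

variable {N : ℕ} {X : ℝ} {p : ℂ} (h : Rg.Pt (KK N) X p X)
include h

theorem norm_eta : ‖eta X p‖ = 2 * ‖et p X‖ * X ^ 2 := by
  simp [eta, abs_of_pos h.X_pos]

theorem eta_re : 0 < (eta X p).re := by
  have e : eta X p = ((2 * X ^ 2 : ℝ) : ℂ) * et p X := by unfold eta; push_cast; ring
  rw [e, re_ofReal_mul]
  have := h.X_pos
  have := h.re_pos
  positivity

theorem eta_ge : 7 * ((N : ℝ) + 1) ≤ ‖eta X p‖ := by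
  have h1 := h.k_le_rho.trans (h.rho_le.trans (re_le_norm _))
  have hX := h.X_pos
  rw [div_le_iff₀ (by positivity), KK] at h1
  rw [norm_eta h]
  linarith

theorem one_le_eta : 7 ≤ ‖eta X p‖ := by
  linarith [eta_ge h, (Nat.cast_nonneg N : (0 : ℝ) ≤ N)]

theorem ww_eq : HJ.ww X (et p X) = (eta X p)⁻¹ := by simp [HJ.ww, eta]

theorem hj_adm : HJ.Adm N X (et p X) := by
  refine ⟨by exact_mod_cast h.X_pos.ne', h.re_pos, h.norm_le.trans (by norm_num), ?_⟩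
  rw [ww_eq h, norm_inv, one_div]
  exact inv_anti₀ (by positivity) (eta_ge h)

theorem one_le_ell : 1 ≤ Real.log (X ^ 2) := by
  rw [Real.le_log_iff_exp_le (by have := h.X_pos; positivity)]
  nlinarith [Real.exp_one_lt_d9, h.x2]

theorem lam_le : ‖Lam X p‖ ≤ 4 * Real.log (X ^ 2) := by
  have h1 := one_le_ell h
  have hX := h.X_pos
  have h2 : |Real.log ‖et p X‖| ≤ Real.log (X ^ 2) := by
    rw [abs_le, ← Real.log_inv]
    refine ⟨Real.log_le_log (by positivity) ?_, Real.log_le_log h.norm_pos ?_⟩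
    · have := one_le_eta h
      rw [norm_eta h] at this
      rw [inv_le_iff_one_le_mul₀ (by positivity)]
      linarith
    · nlinarith [h.norm_le, h.x2]
  refine (norm_sub_le _ _).trans ?_
  rw [Complex.norm_real, Real.norm_of_nonneg (by linarith)]
  linarith [norm_log_le h.re_pos.le]

theorem log_half_eta : log (eta X p / 2) = Real.log (X ^ 2) + log (et p X) := by
  rw [← log_ofReal_mul (by have := h.X_pos; positivity) (norm_pos_iff.1 h.norm_pos)]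
  congr 1
  unfold eta
  push_cast
  ring

theorem log_eta : log (eta X p) = Real.log 2 + log (eta X p / 2) := by
  have h0 : eta X p / 2 ≠ 0 :=
    div_ne_zero (norm_pos_iff.1 (by linarith [one_le_eta h])) two_ne_zero
  rw [← log_ofReal_mul two_pos h0]
  congr 1
  push_cast
  ring

theorem sqrt_eta : eta X p ^ (1 / 2 : ℂ) = HJ.rr (et p X) * X := by
  refine HJ.sqrt_eq (by rw [mul_pow, HJ.rr_sq, eta]) ?_
  rw [re_mul_ofReal]
  have h1 := HJ.norm_rr_le h.re_pos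
  have h2 := norm_pos_iff.2 (HJ.rr_ne (norm_pos_iff.1 h.norm_pos))
  exact mul_pos (by linarith) h.X_pos

theorem norm_sqrt_eta : ‖eta X p ^ (1 / 2 : ℂ)‖ = √‖eta X p‖ := by
  rw [← HJ.sqrt_sq (eta X p), norm_pow, Real.sqrt_sq (norm_nonneg _), HJ.sqrt_sq]

/-- `m0 = e^{-V/2} X²/(X²+4) Z`, `Z` close to `η^{1/2 - M}` -/
theorem m0_eq (hN : HJ.N0 ≤ N) : ∃ Z : ℂ,
    m0 N X (et p X) = exp (-et p X / 2) * (X ^ 2 / (X ^ 2 + 4) : ℝ) * Z ∧
    ‖Z - eta X p ^ (1 / 2 : ℂ) * (eta X p ^ (N + 1))⁻¹‖ ≤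
      3500 * (√‖eta X p‖ * (‖eta X p‖ ^ (N + 1))⁻¹) / (N + 1 : ℕ) + 50000 / HJ.kap N / X ^ 2 := by
  have hk := HJ.kap_pos N
  have hX := h.X_pos
  have hkc : (HJ.kap N : ℂ) ≠ 0 := by exact_mod_cast hk.ne'
  refine ⟨eta X p ^ (1 / 2 : ℂ) * (HJ.nu N X (et p X) - HJ.cs N X (et p X)) / HJ.kap N, ?_, ?_⟩
  · have e : HJ.EE X (et p X) * (Real.exp (X ^ 2 / 4) : ℝ) = exp (-et p X / 2) := by
      rw [HJ.EE, ofReal_exp, ← exp_add]
      congr 1
      push_cast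
      ring
    have h4 : ((X : ℂ) ^ 2 + 4) ≠ 0 := by exact_mod_cast (by positivity : X ^ 2 + 4 ≠ 0)
    rw [m0, HJ.R, sqrt_eta h, ← e]
    push_cast
    field_simp
  · have h1 := (hj_adm h).res_core hN
    rw [ww_eq h, norm_inv, Complex.norm_real, Real.norm_of_nonneg hX.le, inv_pow, inv_pow] at h1
    have e : eta X p ^ (1 / 2 : ℂ) * (HJ.nu N X (et p X) - HJ.cs N X (et p X)) / HJ.kap N -
        eta X p ^ (1 / 2 : ℂ) * (eta X p ^ (N + 1))⁻¹ = eta X p ^ (1 / 2 : ℂ) *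
        (HJ.nu N X (et p X) - HJ.cs N X (et p X) - HJ.kap N * (eta X p ^ (N + 1))⁻¹) /
          HJ.kap N := by
      field_simp
    have h7 := one_le_eta h
    have h2 : √‖eta X p‖ * ‖eta X p‖⁻¹ ≤ 1 := by
      rw [← div_eq_mul_inv, div_le_one (by linarith)]
      exact Real.sqrt_le_iff.2 ⟨by linarith, by nlinarith⟩
    rw [e, norm_div, norm_mul, norm_sqrt_eta h, Complex.norm_real, Real.norm_of_nonneg hk.le]
    calc _ ≤ √‖eta X p‖ * (3500 * (HJ.kap N * (‖eta X p‖ ^ (N + 1))⁻¹ / ((N : ℝ) + 1)) +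
          50000 * (‖eta X p‖⁻¹ / X ^ 2)) / HJ.kap N := by gcongr
      _ = 3500 * (√‖eta X p‖ * (‖eta X p‖ ^ (N + 1))⁻¹) / (N + 1 : ℕ) +
          50000 / HJ.kap N / X ^ 2 * (√‖eta X p‖ * ‖eta X p‖⁻¹) := by
        push_cast
        field_simp
      _ ≤ _ := add_le_add le_rfl (mul_le_of_le_one_right (by positivity) h2)

theorem Z_le (hN : HJ.N0 ≤ N) {Z : ℂ}
    (hZ : ‖Z - eta X p ^ (1 / 2 : ℂ) * (eta X p ^ (N + 1))⁻¹‖ ≤
      3500 * (√‖eta X p‖ * (‖eta X p‖ ^ (N + 1))⁻¹) / (N + 1 : ℕ) + 50000 / HJ.kap N / X ^ 2) :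
    ‖Z‖ ≤ 3501 / ‖eta X p‖ ^ 2 + 50000 / HJ.kap N / X ^ 2 := by
  have h7 := one_le_eta h
  have h1 : √‖eta X p‖ * (‖eta X p‖ ^ (N + 1))⁻¹ ≤ 1 / ‖eta X p‖ ^ 2 := by
    have a1 : √‖eta X p‖ ≤ ‖eta X p‖ := Real.sqrt_le_iff.2 ⟨by linarith, by nlinarith⟩
    have a2 : ‖eta X p‖ ^ 3 ≤ ‖eta X p‖ ^ (N + 1) :=
      pow_le_pow_right₀ (by linarith) (by unfold HJ.N0 at hN; omega)
    calc _ ≤ ‖eta X p‖ * (‖eta X p‖ ^ 3)⁻¹ := by gcongr
      _ = _ := by field_simp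
  have h2 := norm_add_le (Z - eta X p ^ (1 / 2 : ℂ) * (eta X p ^ (N + 1))⁻¹)
    (eta X p ^ (1 / 2 : ℂ) * (eta X p ^ (N + 1))⁻¹)
  rw [sub_add_cancel, norm_mul, norm_sqrt_eta h, norm_inv, norm_pow] at h2
  have h3 : 3500 * (√‖eta X p‖ * (‖eta X p‖ ^ (N + 1))⁻¹) / (N + 1 : ℕ) ≤
      3500 * (√‖eta X p‖ * (‖eta X p‖ ^ (N + 1))⁻¹) :=
    div_le_self (by positivity) (by exact_mod_cast Nat.succ_le_succ (Nat.zero_le N))
  have e : 3501 / ‖eta X p‖ ^ 2 = 3501 * (1 / ‖eta X p‖ ^ 2) := by ring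
  linarith

theorem fac_le : ‖exp (-et p X / 2) * (X ^ 2 / (X ^ 2 + 4) : ℝ)‖ ≤ 1 := by
  rw [norm_mul, norm_exp, Complex.norm_real, Real.norm_of_nonneg (by positivity)]
  refine mul_le_one₀ (Real.exp_le_one_iff.2 ?_) (by positivity)
    ((div_le_one (by positivity)).2 (by linarith))
  have := h.re_pos
  simp only [div_ofNat_re, neg_re]
  linarith

theorem m0_le (hN : HJ.N0 ≤ N) :
    ‖m0 N X (et p X)‖ ≤ 3501 / ‖eta X p‖ ^ 2 + 50000 / HJ.kap N / X ^ 2 := by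
  obtain ⟨Z, e, hZ⟩ := m0_eq h hN
  rw [e, norm_mul]
  exact (mul_le_of_le_one_left (norm_nonneg _) (fac_le h)).trans (Z_le h hN hZ)

theorem sub_le {a : ℂ} {E : ℝ} (hp : ‖hat X p - a‖ ≤ E / X ^ 4) :
    ‖p - a‖ ≤ (25 * Real.log (X ^ 2) + E) / X ^ 4 := by
  have hX := h.X_pos
  have e : p - a = (hat X p - a) - p ^ 2 * Lam X p := by unfold hat; ring
  have h1 : ‖p‖ ≤ 5 / 2 / X ^ 2 := by rw [le_div_iff₀ (by positivity)]; exact h.a_le
  have h2 : ‖p ^ 2 * Lam X p‖ ≤ (5 / 2 / X ^ 2) ^ 2 * (4 * Real.log (X ^ 2)) := by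
    rw [norm_mul, norm_pow]
    exact mul_le_mul (pow_le_pow_left₀ (norm_nonneg _) h1 2) (lam_le h) (norm_nonneg _)
      (by positivity)
  rw [e]
  refine (norm_sub_le _ _).trans ((add_le_add hp h2).trans (le_of_eq ?_))
  field_simp
  ring

/-- the exact relation between `u` and `η` -/
theorem tip_id {a u : ℂ} {E : ℝ} (hE : 0 ≤ E) (hp : ‖hat X p - a‖ ≤ E / X ^ 4)
    (hs : (25 * Real.log (X ^ 2) + E) / X ^ 2 ≤ 1 / 4) (ha : 1 / (2 * X ^ 2) ≤ ‖a‖)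
    (hu : a * ((TL N X : ℝ) + u) = -2) : ∃ r : ℂ,
    ‖r‖ ≤ 16 * (Real.log (X ^ 2) * (25 * Real.log (X ^ 2) + E) / X ^ 2) + 16 * E ∧
    1 / (4 * X ^ 2) ≤ ‖p‖ ∧ -2 * et p X / p = u + 2 * log (eta X p / 2) + 2 + c0 N - r ∧
    -2 / p - X ^ 2 = -2 + -2 * et p X / p := by
  have hX := h.X_pos
  have hl := one_le_ell h
  have h1 := sub_le h hp
  have h2 : (25 * Real.log (X ^ 2) + E) / X ^ 4 ≤ 1 / (4 * X ^ 2) := by
    have : (25 * Real.log (X ^ 2) + E) / X ^ 4 = (25 * Real.log (X ^ 2) + E) / X ^ 2 / X ^ 2 := by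
      field_simp
    rw [this, ← div_div]
    gcongr
  have h3 : 1 / (4 * X ^ 2) ≤ ‖p‖ := by
    have := norm_sub_norm_le a p
    rw [norm_sub_rev] at this
    have e : 1 / (2 * X ^ 2) = 2 * (1 / (4 * X ^ 2)) := by field_simp; ring
    linarith
  have ha0 : a ≠ 0 := norm_pos_iff.1 (lt_of_lt_of_le (by positivity) ha)
  have hp0 : p ≠ 0 := norm_pos_iff.1 (lt_of_lt_of_le (by positivity) h3)
  have i1 : ‖a‖⁻¹ ≤ 2 * X ^ 2 := by
    rw [inv_le_comm₀ (norm_pos_iff.2 ha0) (by positivity), ← one_div]; exact ha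
  have i2 : ‖p‖⁻¹ ≤ 4 * X ^ 2 := by
    rw [inv_le_comm₀ (norm_pos_iff.2 hp0) (by positivity), ← one_div]; exact h3
  refine ⟨2 * ((p - a) * a⁻¹ * Lam X p) - 2 * ((hat X p - a) * a⁻¹ * p⁻¹), ?_, h3, ?_, ?_⟩
  · refine (norm_sub_le _ _).trans ?_
    simp only [norm_mul, norm_inv, Complex.norm_ofNat]
    have hL := lam_le h
    calc _ ≤ 2 * ((25 * Real.log (X ^ 2) + E) / X ^ 4 * (2 * X ^ 2) * (4 * Real.log (X ^ 2))) +
          2 * (E / X ^ 4 * (2 * X ^ 2) * (4 * X ^ 2)) := by gcongr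
      _ = _ := by field_simp; ring
  · have e1 : u = -2 / a - (TL N X : ℝ) := by field_simp; linear_combination hu
    rw [log_half_eta h, e1]
    simp only [TL, hat, Lam, et]
    push_cast
    field_simp
    ring
  · simp only [et]
    field_simp
    ring

theorem log_half_le : ‖log (eta X p / 2)‖ ≤ ‖eta X p‖ / 20 + 12 := by
  have h7 := one_le_eta h
  have h1 := norm_log_le (ζ := eta X p / 2) (by
    have := eta_re h
    simp only [div_ofNat_re]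
    linarith)
  rw [norm_div, Complex.norm_ofNat, abs_of_nonneg (Real.log_nonneg (by linarith))] at h1
  have h2 : Real.log (‖eta X p‖ / 2) = Real.log 10 + Real.log (‖eta X p‖ / 20) := by
    rw [← Real.log_mul (by norm_num) (by positivity)]
    congr 1
    ring
  linarith [Real.log_le_sub_one_of_pos (show (0 : ℝ) < 10 by norm_num),
    Real.log_le_sub_one_of_pos (show 0 < ‖eta X p‖ / 20 by positivity)]

end

theorem ev_ell (n : ℕ) : Tendsto (fun X : ℝ => Real.log (X ^ 2) ^ n / X ^ 2) atTop (𝓝 0) := by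
  simpa [Function.comp_def] using (Real.tendsto_pow_log_div_mul_add_atTop 1 0 n one_ne_zero).comp
    (tendsto_pow_atTop two_ne_zero)

theorem ev_inv (c : ℝ) : Tendsto (fun X : ℝ => c / X ^ 2) atTop (𝓝 0) :=
  tendsto_const_nhds.div_atTop (tendsto_pow_atTop two_ne_zero)

theorem ev_TL (N : ℕ) : ∀ᶠ X : ℝ in atTop, X ^ 2 ≤ TL N X ∧ TL N X ≤ 2 * X ^ 2 := by
  have h1 : Tendsto (fun X : ℝ => 4 * (Real.log (X ^ 2) ^ 1 / X ^ 2) + c0 N / X ^ 2) atTop
      (𝓝 (4 * 0 + 0)) := ((ev_ell 1).const_mul 4).add (ev_inv _)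
  have h2 : Tendsto (fun X : ℝ => Real.log (X ^ 2)) atTop atTop :=
    Real.tendsto_log_atTop.comp (tendsto_pow_atTop two_ne_zero)
  filter_upwards [h1.eventually (gt_mem_nhds (show (4 * 0 + 0 : ℝ) < 1 by norm_num)),
    h2.eventually_ge_atTop (-c0 N / 4), eventually_gt_atTop 0] with X a b c
  rw [pow_one, ← mul_div_assoc, ← add_div, div_lt_one (by positivity)] at a
  unfold TL
  constructor <;> linarith

theorem ev_small (E : ℝ) {ε : ℝ} (hε : 0 < ε) : ∀ᶠ X : ℝ in atTop,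
    (25 * Real.log (X ^ 2) + E) / X ^ 2 ≤ ε ∧
      Real.log (X ^ 2) * (25 * Real.log (X ^ 2) + E) / X ^ 2 ≤ ε := by
  have h1 := ((ev_ell 1).const_mul 25).add (ev_inv E)
  have h2 := ((ev_ell 2).const_mul 25).add ((ev_ell 1).const_mul E)
  simp only [mul_zero, add_zero] at h1 h2
  filter_upwards [h1.eventually (ge_mem_nhds hε), h2.eventually (ge_mem_nhds hε)] with X a b
  constructor
  · refine le_trans (le_of_eq ?_) a
    ring
  · refine le_trans (le_of_eq ?_) b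
    ring

theorem ev_pt (N : ℕ) : ∀ᶠ X : ℝ in atTop, ∀ p, Adm (KK N) X p → Rg.Pt (KK N) X p X := by
  filter_upwards [eventually_ge_atTop 2, (tendsto_pow_atTop (α := ℝ) two_ne_zero).eventually_ge_atTop
    (4 * KK N)] with X a b p hp
  refine ⟨a, le_rfl, ?_, b, hp⟩
  unfold KK
  linarith [(Nat.cast_nonneg N : (0 : ℝ) ≤ N)]

/-- the bounds `crude0` and `crude` -/
theorem tip_crude {N : ℕ} (hN : HJ.N0 ≤ N) {E₀ : ℝ} : ∃ C₁, 0 ≤ C₁ ∧ ∀ᶠ X : ℝ in atTop,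
    ∀ (p a : ℂ) (E : ℝ), Adm (KK N) X p → 0 ≤ E → E ≤ E₀ → ‖hat X p - a‖ ≤ E / X ^ 4 →
      (‖a‖ ≤ 1 / TL N X → ‖m0 N X (et p X)‖ ≤ C₁ / X ^ 2) ∧
      ∀ u : ℂ, 1 / TL N X ≤ ‖a‖ → a * ((TL N X : ℝ) + u) = -2 →
        ‖m0 N X (et p X)‖ ≤ C₁ * (((1 + ‖u‖) ^ 2)⁻¹ + 1 / X ^ 2) := by
  have hk := HJ.kap_pos N
  set D : ℝ := 40 + |c0 N| + 16 * |E₀| with hD
  refine ⟨7000 + 3501 * D ^ 2 + 50000 / HJ.kap N, by positivity, ?_⟩
  filter_upwards [ev_TL N, ev_small E₀ (show (0 : ℝ) < 1 / 4 by norm_num), ev_pt N]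
    with X hT hs hpt p a E hp hE hE' hh
  have h := hpt p hp
  have hX := h.X_pos
  have hl := one_le_ell h
  have hm := m0_le h hN
  have h7 := one_le_eta h
  have hs1 : (25 * Real.log (X ^ 2) + E) / X ^ 2 ≤ 1 / 4 := le_trans (by gcongr) hs.1
  have hs2 : Real.log (X ^ 2) * (25 * Real.log (X ^ 2) + E) / X ^ 2 ≤ 1 / 4 :=
    le_trans (by gcongr) hs.2
  refine ⟨fun ha => hm.trans ?_, fun u ha hu => hm.trans ?_⟩
  · have a1 : ‖a‖ * X ^ 2 ≤ 1 := by
      rw [← le_div_iff₀ (by positivity)]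
      exact ha.trans (one_div_le_one_div_of_le (by positivity) hT.1)
    have a2 : ‖p - a‖ * X ^ 2 ≤ 1 / 4 := by
      refine le_trans ?_ hs1
      refine (mul_le_mul_of_nonneg_right (sub_le h hh) (by positivity)).trans (le_of_eq ?_)
      field_simp
    have a3 : ‖p‖ * X ^ 2 ≤ 5 / 4 := by
      have := mul_le_mul_of_nonneg_right (norm_sub_norm_le p a) (sq_nonneg X)
      linarith
    have a4 : 3 / 8 ≤ ‖et p X‖ := by
      have b1 := norm_sub_norm_le (1 : ℂ) (et p X)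
      have b2 : (1 : ℂ) - et p X = -(p * ((X ^ 2 - 2 : ℝ) : ℂ) / 2) := by
        unfold et; push_cast; ring
      rw [b2, norm_one, norm_neg, norm_div, norm_mul, Complex.norm_real,
        Real.norm_of_nonneg (by nlinarith [h.x2]), Complex.norm_ofNat] at b1
      nlinarith [norm_nonneg p]
    have a5 : 3 / 4 * X ^ 2 ≤ ‖eta X p‖ := by rw [norm_eta h]; nlinarith [sq_nonneg X]
    have a6 : 3501 / ‖eta X p‖ ^ 2 ≤ 7000 / X ^ 2 := by
      rw [div_le_div_iff₀ (by positivity) (by positivity)]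
      nlinarith
    have a7 : 0 ≤ 3501 * D ^ 2 / X ^ 2 := by positivity
    rw [add_div, add_div]
    linarith
  · obtain ⟨r, r1, r2, r3, -⟩ := tip_id h hE hh hs1
      ((one_div_le_one_div_of_le (by linarith [sq_pos_of_pos hX, hT.1]) hT.2).trans ha) hu
    have a1 : ‖-2 * et p X / p‖ ≤ 4 * ‖eta X p‖ := by
      rw [norm_div, norm_mul, norm_neg, Complex.norm_ofNat, norm_eta h,
        div_le_iff₀ (lt_of_lt_of_le (by positivity) r2)]
      rw [div_le_iff₀ (by positivity)] at r2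
      nlinarith [mul_le_mul_of_nonneg_left r2 (norm_nonneg (et p X))]
    have a2 : ‖u‖ ≤ 4 * ‖eta X p‖ + 2 * (‖eta X p‖ / 20 + 12) + 2 + |c0 N| + ‖r‖ := by
      have e : u = -2 * et p X / p - 2 * log (eta X p / 2) - 2 - c0 N + r := by
        linear_combination -r3
      rw [e]
      refine (norm_add_le _ _).trans (add_le_add ((norm_sub_le _ _).trans (add_le_add
        ((norm_sub_le _ _).trans (add_le_add ((norm_sub_le _ _).trans (add_le_add a1 ?_)) ?_))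
        ?_)) le_rfl)
      · rw [norm_mul, Complex.norm_ofNat]
        linarith [log_half_le h]
      · simp
      · simp
    have a3 : 1 + ‖u‖ ≤ D * ‖eta X p‖ := by
      have b1 : E ≤ |E₀| := hE'.trans (le_abs_self _)
      have b2 := le_mul_of_one_le_right (abs_nonneg (c0 N)) (show 1 ≤ ‖eta X p‖ by linarith)
      have b3 := le_mul_of_one_le_right (abs_nonneg E₀) (show 1 ≤ ‖eta X p‖ by linarith)
      rw [hD]
      linarith
    have a4 : 3501 / ‖eta X p‖ ^ 2 ≤ 3501 * D ^ 2 * ((1 + ‖u‖) ^ 2)⁻¹ := by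
      rw [← div_eq_mul_inv, div_le_div_iff₀ (by positivity) (by positivity), mul_assoc, ← mul_pow]
      gcongr
    have a5 : 0 ≤ ((1 + ‖u‖) ^ 2)⁻¹ := by positivity
    have a6 : 0 ≤ 1 / X ^ 2 := by positivity
    have a7 : 0 ≤ 50000 / HJ.kap N := by positivity
    have e : 50000 / HJ.kap N / X ^ 2 = 50000 / HJ.kap N * (1 / X ^ 2) := by ring
    nlinarith [mul_nonneg a7 a5, mul_nonneg (sq_nonneg D) a6]

/-- near the tip: the hypotheses of the bridge -/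
theorem tip_near (N : ℕ) (W : ℝ) {ε : ℝ} (hε : 0 < ε) : ∀ᶠ X : ℝ in atTop,
    ∀ (p a u : ℂ) (E : ℝ), Adm (KK N) X p → 0 ≤ E → E ≤ 1 → ‖hat X p - a‖ ≤ E / X ^ 4 →
      a * ((TL N X : ℝ) + u) = -2 → ‖u‖ ≤ W → ‖et p X‖ ≤ ε ∧
      ‖eta X p - 4 * log (eta X p) - (8 * (N + 1 : ℕ) - 4 * log (8 * (N + 1 : ℕ))) - 2 * u‖ ≤
        32 * E + ε := by
  set H : ℝ := 4 * (W + 50 + |c0 N|) with hH
  filter_upwards [ev_TL N, ev_small 1 (show (0 : ℝ) < 1 / 4 by norm_num),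
    ev_small 1 (show (0 : ℝ) < ε / 64 by positivity), ev_pt N,
    (ev_inv (H * (2 + 4 * H))).eventually (ge_mem_nhds (half_pos hε)),
    (ev_inv H).eventually (ge_mem_nhds hε),
    (tendsto_pow_atTop (α := ℝ) two_ne_zero).eventually_ge_atTop W]
    with X hT hs hs' hpt hH1 hH2 hW p a u E hp hE hE' hh hu huW
  have h := hpt p hp
  have hX := h.X_pos
  have hl := one_le_ell h
  have h7 := one_le_eta h
  have hs1 : (25 * Real.log (X ^ 2) + E) / X ^ 2 ≤ 1 / 4 := le_trans (by gcongr) hs.1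
  have hs2 : Real.log (X ^ 2) * (25 * Real.log (X ^ 2) + E) / X ^ 2 ≤ 1 / 4 :=
    le_trans (by gcongr) hs.2
  have hs3 : Real.log (X ^ 2) * (25 * Real.log (X ^ 2) + E) / X ^ 2 ≤ ε / 64 :=
    le_trans (by gcongr) hs'.2
  have ha : 1 / (2 * X ^ 2) ≤ ‖a‖ := by
    have b1 := congrArg norm hu
    rw [norm_mul, norm_neg, Complex.norm_ofNat] at b1
    have b2 : ‖((TL N X : ℝ) : ℂ) + u‖ ≤ 4 * X ^ 2 := by
      refine (norm_add_le _ _).trans ?_
      rw [Complex.norm_real, Real.norm_of_nonneg (by linarith [sq_nonneg X, hT.1])]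
      linarith [sq_nonneg X, hT.2]
    rw [div_le_iff₀ (by positivity)]
    linarith [mul_le_mul_of_nonneg_left b2 (norm_nonneg a)]
  obtain ⟨r, r1, r2, r3, r4⟩ := tip_id h hE hh hs1 ha hu
  have hp0 : 0 < ‖p‖ := lt_of_lt_of_le (by positivity) r2
  have a0 : ‖-2 * et p X / p‖ ≤ 4 * ‖eta X p‖ := by
    rw [norm_div, norm_mul, norm_neg, Complex.norm_ofNat, norm_eta h, div_le_iff₀ hp0]
    rw [div_le_iff₀ (by positivity)] at r2
    nlinarith [mul_le_mul_of_nonneg_left r2 (norm_nonneg (et p X))]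
  have a1 : 2 / 5 * ‖eta X p‖ ≤ ‖-2 * et p X / p‖ := by
    rw [norm_div, norm_mul, norm_neg, Complex.norm_ofNat, norm_eta h, le_div_iff₀ hp0]
    nlinarith [mul_le_mul_of_nonneg_left h.a_le (norm_nonneg (et p X))]
  have a2 : ‖-2 * et p X / p‖ ≤ W + 2 * (‖eta X p‖ / 20 + 12) + 2 + |c0 N| + ‖r‖ := by
    rw [r3]
    refine (norm_sub_le _ _).trans (add_le_add ((norm_add_le _ _).trans (add_le_add
      ((norm_add_le _ _).trans (add_le_add ((norm_add_le _ _).trans (add_le_add huW ?_)) ?_))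
      ?_)) le_rfl)
    · rw [norm_mul, Complex.norm_ofNat]
      linarith [log_half_le h]
    · simp
    · simp
  have hW0 : 0 ≤ W := (norm_nonneg _).trans huW
  have a3 : ‖eta X p‖ ≤ H := by rw [hH]; linarith [abs_nonneg (c0 N)]
  have a4 : ‖et p X‖ ≤ H / X ^ 2 / 2 := by
    rw [norm_eta h] at a3
    rw [div_div, le_div_iff₀ (by positivity)]
    linarith
  have hH0 : 0 ≤ H / X ^ 2 := by have : 0 ≤ H := by linarith
                                 positivity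
  refine ⟨by linarith, ?_⟩
  have hM : (0 : ℝ) < 4 * ((N : ℝ) + 1) := by positivity
  have e1 : log (8 * ((N + 1 : ℕ) : ℂ)) = Real.log 2 + Real.log (4 * ((N : ℝ) + 1)) := by
    rw [← ofReal_add, ← Real.log_mul two_ne_zero hM.ne', ofReal_log (by positivity)]
    congr 1
    push_cast
    ring
  have e2 : eta X p - 4 * log (eta X p) - (8 * (N + 1 : ℕ) - 4 * log (8 * (N + 1 : ℕ))) - 2 * u =
      -2 * (et p X * (-2 + -2 * et p X / p)) - 2 * r := by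
    have e3 : u = -2 * et p X / p - 2 * log (eta X p / 2) - 2 - c0 N + r := by
      linear_combination -r3
    rw [← r4, e1, log_eta h, e3]
    simp only [c0, eta]
    push_cast
    ring
  have a5 : ‖et p X * (-2 + -2 * et p X / p)‖ ≤ H / X ^ 2 / 2 * (2 + 4 * H) := by
    rw [norm_mul]
    refine mul_le_mul a4 ((norm_add_le _ _).trans (add_le_add (by simp) (by linarith)))
      (norm_nonneg _) (by positivity)
  have e4 : H / X ^ 2 / 2 * (2 + 4 * H) = H * (2 + 4 * H) / X ^ 2 / 2 := by ring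
  rw [e2]
  refine (norm_sub_le _ _).trans ?_
  simp only [norm_mul (-2 : ℂ), norm_mul (2 : ℂ), norm_neg, Complex.norm_ofNat]
  linarith

/-- **Tip lemma**: `Ker` and the bounds `crude0`, `crude`, `sharp` for `m0`. -/
theorem tip (C₀ : ℝ) (q : ℕ) : ∃ N₁ : ℕ, HJ.N0 ≤ N₁ ∧ ∀ N, N₁ ≤ N → ∃ (Mj : ℝ → ℝ) (Ck : ℝ),
    B2.Ker (ph (N + 1)) Mj q Ck ∧ ∀ k C : ℝ, 0 < k →
      (∃ C₁, 0 ≤ C₁ ∧ ∀ᶠ X : ℝ in atTop, ∀ p a : ℂ, Adm (KK N) X p →
        ‖hat X p - a‖ ≤ (C₀ / ((N : ℝ) + 1) + C * X ^ (-k)) / X ^ 4 →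
        (‖a‖ ≤ 1 / TL N X → ‖m0 N X (et p X)‖ ≤ C₁ / X ^ 2) ∧
        ∀ u : ℂ, 1 / TL N X ≤ ‖a‖ → a * ((TL N X : ℝ) + u) = -2 →
          ‖m0 N X (et p X)‖ ≤ C₁ * (((1 + ‖u‖) ^ 2)⁻¹ + 1 / X ^ 2)) ∧
      ∀ W ε : ℝ, 0 < ε → ∀ᶠ X : ℝ in atTop, ∀ p a u : ℂ, Adm (KK N) X p →
        ‖hat X p - a‖ ≤ (C₀ / ((N : ℝ) + 1) + C * X ^ (-k)) / X ^ 4 →
        a * ((TL N X : ℝ) + u) = -2 → ‖u‖ ≤ W → -1 ≤ u.re →
          ‖m0 N X (et p X) - ph (N + 1) u‖ ≤ Mj u.im + ε := by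
  obtain ⟨M₀, -, hM₀⟩ := ker q (C₀ := 3500) (by norm_num)
  obtain ⟨M₁, hM₁⟩ := exists_nat_ge ((128 * |C₀|) ^ 2)
  refine ⟨HJ.N0 + M₀ + M₁, by omega, fun N hN => ?_⟩
  obtain ⟨Mj, Ck, hK, hB⟩ := hM₀ (N + 1) (by omega)
  have hN0 : HJ.N0 ≤ N := by omega
  have hM : (1 : ℝ) ≤ (N + 1 : ℕ) := by exact_mod_cast Nat.succ_le_succ (Nat.zero_le N)
  have hr1 : 1 ≤ √((N + 1 : ℕ) : ℝ) := Real.one_le_sqrt.2 hM
  have hr2 : 128 * |C₀| ≤ √((N + 1 : ℕ) : ℝ) := Real.le_sqrt_of_sq_le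
    (hM₁.trans (by exact_mod_cast (show M₁ ≤ N + 1 by omega)))
  set th : ℝ := 1 / √((N + 1 : ℕ) : ℝ) with hth
  have hth0 : 0 < th := by positivity
  have hth1 : th ≤ 1 := by rw [hth, div_le_one (by linarith)]; exact hr1
  have hc : C₀ / ((N : ℝ) + 1) ≤ th / 128 := by
    have e : ((N : ℝ) + 1) = √((N + 1 : ℕ) : ℝ) * √((N + 1 : ℕ) : ℝ) := by
      rw [Real.mul_self_sqrt (by positivity)]; push_cast; ring
    rw [e, hth, div_div, div_le_div_iff₀ (by positivity) (by positivity)]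
    nlinarith [le_abs_self C₀]
  refine ⟨Mj, Ck, hK, fun k C hk => ?_⟩
  have hev : ∀ᶠ X : ℝ in atTop, (C₀ / ((N : ℝ) + 1) + C * X ^ (-k)) / X ^ 4 ≤ th / 64 / X ^ 4 := by
    have := (tendsto_rpow_neg_atTop hk).const_mul C
    rw [mul_zero] at this
    filter_upwards [this.eventually (ge_mem_nhds (show 0 < th / 128 by positivity))] with X a
    gcongr
    linarith
  refine ⟨?_, fun W ε hε => ?_⟩
  · obtain ⟨C₁, h0, h1⟩ := tip_crude hN0 (E₀ := 1)
    refine ⟨C₁, h0, ?_⟩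
    filter_upwards [h1, hev] with X a b p a' hp hh
    exact a p a' (th / 64) hp (by positivity) (by linarith) (hh.trans b)
  · have hkap := HJ.kap_pos N
    set δ : ℝ := min (th / 2) (ε / 10000) with hδ
    have hδ0 : 0 < δ := lt_min (by positivity) (by positivity)
    have hδ1 : δ ≤ th / 2 := min_le_left _ _
    have hδ2 : δ ≤ ε / 10000 := min_le_right _ _
    filter_upwards [tip_near N W hδ0, hev, ev_pt N,
      (ev_inv (50000 / HJ.kap N)).eventually (ge_mem_nhds hδ0),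
      (ev_inv 4).eventually (ge_mem_nhds hδ0)] with X h1 h2 h3 h4 h5 p a u hp hh hu huW hre
    have h := h3 p hp
    have hX := h.X_pos
    obtain ⟨b1, b2⟩ := h1 p a u (th / 64) hp (by positivity) (by linarith) (hh.trans h2) hu huW
    obtain ⟨Z, e, hZ⟩ := m0_eq h hN0
    have hZ1 := Z_le h hN0 hZ
    obtain ⟨y, y1, y2⟩ := split_norm (by positivity) (by positivity) hZ
    have c1 := hB u (eta X p) (y + eta X p ^ (1 / 2 : ℂ) * (eta X p ^ (N + 1))⁻¹) hre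
      (by have := eta_ge h; push_cast; linarith [(Nat.cast_nonneg N : (0 : ℝ) ≤ N)]) (eta_re h)
      (by linarith) (by rwa [add_sub_cancel_right])
    have c2 : ‖Z‖ ≤ 101 := by
      have : 3501 / ‖eta X p‖ ^ 2 ≤ 100 := by
        have := one_le_eta h
        rw [div_le_iff₀ (by positivity)]
        nlinarith
      linarith
    have c3 : ‖exp (-et p X / 2) * (X ^ 2 / (X ^ 2 + 4) : ℝ) - 1‖ ≤ 2 * δ := by
      have d1 : ‖exp (-et p X / 2) - 1‖ ≤ δ := by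
        have d0 : ‖-et p X / 2‖ ≤ δ / 2 := by
          rw [norm_div, norm_neg, Complex.norm_ofNat]; linarith
        linarith [norm_exp_sub_one_le (x := -et p X / 2) (by linarith)]
      have d2 : X ^ 2 / (X ^ 2 + 4) ≤ 1 := (div_le_one (by positivity)).2 (by linarith)
      have d3 : 1 - X ^ 2 / (X ^ 2 + 4) ≤ 4 / X ^ 2 := by
        rw [one_sub_div (by positivity), add_sub_cancel_left]
        gcongr
        linarith
      have d4 : exp (-et p X / 2) * (X ^ 2 / (X ^ 2 + 4) : ℝ) - 1 =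
          (exp (-et p X / 2) - 1) * (X ^ 2 / (X ^ 2 + 4) : ℝ) -
            ((1 - X ^ 2 / (X ^ 2 + 4) : ℝ) : ℂ) := by push_cast; ring
      rw [d4]
      refine (norm_sub_le _ _).trans ?_
      rw [norm_mul, Complex.norm_real, Complex.norm_real, Real.norm_of_nonneg (by positivity),
        Real.norm_of_nonneg (by linarith)]
      linarith [mul_le_of_le_one_right (norm_nonneg (exp (-et p X / 2) - 1)) d2]
    have c4 : m0 N X (et p X) - ph (N + 1) u =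
        (exp (-et p X / 2) * (X ^ 2 / (X ^ 2 + 4) : ℝ) - 1) * Z +
        (Z - eta X p ^ (1 / 2 : ℂ) * (eta X p ^ (N + 1))⁻¹ - y) +
        (y + eta X p ^ (1 / 2 : ℂ) * (eta X p ^ (N + 1))⁻¹ - ph (N + 1) u) := by
      rw [e]; ring
    have c5 : ‖(exp (-et p X / 2) * (X ^ 2 / (X ^ 2 + 4) : ℝ) - 1) * Z‖ ≤ 2 * δ * 101 := by
      rw [norm_mul]
      gcongr
    rw [c4]
    refine (norm_add_le _ _).trans ((add_le_add (norm_add_le _ _) c1).trans ?_)
    linarith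

end Crest.Agent.N250.Hk

end
end

-- ▼ part N250/Gi/Mm
section

/-!
# Row 250 (helper11 for helper62): the normalised residual `mm` and its bounds
-/

set_option autoImplicit false
open Set Filter Topology

noncomputable section

namespace Crest.Agent.N250.Gi.T

open B1

/-- `η^{1/2} (ν - cos) / κ` -/
def z0 (N : ℕ) (X : ℝ) (α : ℂ) : ℂ :=
  X * HJ.rr (et α X) * (HJ.nu N X (et α X) - HJ.cs N X (et α X)) / HJ.kap N

/-- the normalised residual -/
def mm (N : ℕ) (X : ℝ) (α : ℂ) : ℂ :=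
  Complex.exp (-et α X / 2) * z0 N X α * ((X ^ 2 / (X ^ 2 + 4) : ℝ) : ℂ)

theorem mm_eq_m0 (N : ℕ) (X : ℝ) (α : ℂ) : mm N X α = Hk.m0 N X (et α X) := by
  have hkc : (HJ.kap N : ℂ) ≠ 0 := by exact_mod_cast (HJ.kap_pos N).ne'
  have e : HJ.EE X (et α X) * (Real.exp (X ^ 2 / 4) : ℝ) = Complex.exp (-et α X / 2) := by
    rw [HJ.EE, Complex.ofReal_exp, ← Complex.exp_add]
    congr 1
    push_cast
    ring
  have h4 : ((X : ℂ) ^ 2 + 4) ≠ 0 := by exact_mod_cast (by positivity : X ^ 2 + 4 ≠ 0)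
  rw [mm, z0, Hk.m0, HJ.R, ← e]
  push_cast
  field_simp

theorem mmS (C0 : ℝ) (p : ℕ) : ∃ N0, ∀ N, N0 ≤ N → ∃ Mj C1, B2.Ker (Hk.ph (N + 1)) Mj p C1 ∧
    ∀ C k : ℝ, 0 < k →
      (∃ X1 C2 : ℝ, ∀ X, X1 < X → ∀ α a : ℂ, B1.Adm (KK N) X α →
        ‖hat X α - a‖ ≤ (C0 / ((N : ℝ) + 1) + C * X ^ (-k)) / X ^ 4 →
        (‖a‖ ≤ 1 / TL N X → ‖mm N X α‖ ≤ C2 / X ^ 2) ∧
        ∀ u : ℂ, 1 / TL N X ≤ ‖a‖ → a * ((TL N X : ℝ) + u) = -2 →
          ‖mm N X α‖ ≤ C2 * (((1 + ‖u‖) ^ 2)⁻¹ + 1 / X ^ 2)) ∧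
      ∀ V ε : ℝ, 0 < ε → ∃ X2 : ℝ, ∀ X, X2 < X → ∀ α a u : ℂ, B1.Adm (KK N) X α →
        ‖hat X α - a‖ ≤ (C0 / ((N : ℝ) + 1) + C * X ^ (-k)) / X ^ 4 →
        a * ((TL N X : ℝ) + u) = -2 → ‖u‖ ≤ V → -1 ≤ u.re →
          ‖mm N X α - Hk.ph (N + 1) u‖ ≤ Mj u.im + ε := by
  obtain ⟨N₁, -, h⟩ := Hk.tip C0 p
  refine ⟨N₁, fun N hN => ?_⟩
  obtain ⟨Mj, Ck, hK, h1⟩ := h N hN
  refine ⟨Mj, Ck, hK, fun C k hk => ?_⟩
  obtain ⟨⟨C₁, -, h2⟩, h3⟩ := h1 k C hk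
  simp only [mm_eq_m0]
  refine ⟨?_, fun V ε hε => ?_⟩
  · obtain ⟨X1, h4⟩ := eventually_atTop.1 h2
    exact ⟨X1, C₁, fun X hX => h4 X hX.le⟩
  · obtain ⟨X2, h4⟩ := eventually_atTop.1 (h3 V ε hε)
    exact ⟨X2, fun X hX => h4 X hX.le⟩

end Crest.Agent.N250.Gi.T

end
end

-- ▼ part N250/Gi/XL
section

/-!
# Row 250 (helper62): the cut as a function of the level
-/

set_option autoImplicit false
open Set Filter Topology

noncomputable section

namespace Crest.Agent.N250.Gi.T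

open B2

variable {N : ℕ}

theorem TL_der (N : ℕ) {X : ℝ} (hX : 0 < X) : HasStrictDerivAt (TL N) (2 * X + 8 / X) X := by
  have h1 : HasStrictDerivAt (fun x : ℝ => x ^ 2) (2 * X) X := by
    simpa using hasStrictDerivAt_pow 2 X
  have h2 := ((h1.add ((h1.log (by positivity)).const_mul 4)).add_const (c0 N))
  have e : 2 * X + 8 / X = 2 * X + 4 * (2 * X / X ^ 2) := by field_simp; ring
  rw [e]
  exact h2

theorem TL_mono (N : ℕ) : StrictMonoOn (TL N) (Ioi 0) := fun x hx y _ hxy => by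
  have hx : 0 < x := hx
  have h1 : x ^ 2 < y ^ 2 := by nlinarith
  have := Real.log_lt_log (by positivity) h1
  unfold TL; linarith

theorem XL_TL (N : ℕ) {X : ℝ} (hX : 0 < X) : XL N (TL N X) = X :=
  (TL_mono N).injOn.leftInvOn_invFunOn hX

theorem TL_ge (N : ℕ) {X : ℝ} (hX : 1 ≤ X) : X + c0 N ≤ TL N X := by
  have := Real.log_nonneg (show 1 ≤ X ^ 2 by nlinarith)
  unfold TL; nlinarith

theorem TL_top (N : ℕ) : Tendsto (TL N) atTop atTop :=
  tendsto_atTop_mono' _ ((eventually_ge_atTop 1).mono fun _ h => TL_ge N h)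
    (tendsto_atTop_add_const_right _ _ tendsto_id)

/-- every large level comes from a large cut -/
theorem exists_TL (N : ℕ) {X1 B : ℝ} (h1 : 0 < X1) (hB : TL N X1 < B) : ∃ X, X1 < X ∧ TL N X = B := by
  obtain ⟨Y, hY1, hY2⟩ := (((TL_top N).eventually_ge_atTop B).and (eventually_ge_atTop X1)).exists
  have hc : ContinuousOn (TL N) (Icc X1 Y) := fun x hx =>
    (TL_der N (h1.trans_le hx.1)).hasDerivAt.continuousAt.continuousWithinAt
  obtain ⟨X, hX, e⟩ := intermediate_value_Ioc hY2 hc ⟨hB, hY1⟩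
  exact ⟨X, hX.1, e⟩

theorem XL_spec (N : ℕ) {X1 B : ℝ} (h1 : 0 < X1) (hB : TL N X1 < B) :
    X1 < XL N B ∧ TL N (XL N B) = B := by
  obtain ⟨X, hX, rfl⟩ := exists_TL N h1 hB
  rw [XL_TL N (h1.trans hX)]
  exact ⟨hX, rfl⟩

theorem XL_der (N : ℕ) {X1 B : ℝ} (h1 : 0 < X1) (hB : TL N X1 < B) :
    HasDerivAt (XL N) (2 * XL N B + 8 / XL N B)⁻¹ B := by
  obtain ⟨X, hX, rfl⟩ := exists_TL N h1 hB
  have h0 := h1.trans hX
  rw [XL_TL N h0]
  exact ((TL_der N h0).to_local_left_inverse (by positivity)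
    ((eventually_gt_nhds h0).mono fun x hx => XL_TL N hx)).hasDerivAt

theorem XL_c1 (N : ℕ) {X1 : ℝ} (h1 : 0 < X1) : ContDiffOn ℝ 1 (XL N) (Ioi (TL N X1)) := by
  have hd : DifferentiableOn ℝ (XL N) (Ioi (TL N X1)) := fun B hB =>
    (XL_der N h1 hB).differentiableAt.differentiableWithinAt
  rw [show (1 : WithTop ℕ∞) = 0 + 1 from rfl, contDiffOn_succ_iff_deriv_of_isOpen isOpen_Ioi]
  refine ⟨hd, by simp, contDiffOn_zero.2 ?_⟩
  have hp : ∀ B ∈ Ioi (TL N X1), 0 < XL N B := fun B hB => h1.trans (XL_spec N h1 hB).1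
  refine ContinuousOn.congr (f := fun B => (2 * XL N B + 8 / XL N B)⁻¹) ?_
    fun B hB => (XL_der N h1 hB).deriv
  refine ((hd.continuousOn.const_mul 2).add
    (continuousOn_const.div hd.continuousOn fun B hB => (hp B hB).ne')).inv₀ fun B hB => ?_
  have := hp B hB
  exact (by positivity : 0 < 2 * XL N B + 8 / XL N B).ne'

theorem TL_cmp (N : ℕ) : ∀ᶠ X in atTop, X ^ 2 ≤ TL N X ∧ TL N X ≤ 2 * X ^ 2 := by
  have h1 : Tendsto (fun X : ℝ => Real.log (X ^ 2)) atTop atTop :=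
    Real.tendsto_log_atTop.comp (tendsto_pow_atTop two_ne_zero)
  filter_upwards [h1.eventually_ge_atTop |c0 N|, eventually_ge_atTop 10] with X a b
  have h2 : Real.log (X ^ 2) ≤ 2 * (X - 1) := by
    rw [Real.log_pow]
    have := Real.log_le_sub_one_of_pos (show 0 < X by linarith)
    push_cast; linarith
  have := neg_abs_le (c0 N)
  have := le_abs_self (c0 N)
  have := abs_nonneg (c0 N)
  unfold TL
  constructor <;> nlinarith

variable {ι κ : Type} [Fintype ι] [Fintype κ]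

theorem isOpen_DX (N : ℕ) (r δ : ℝ) {X1 : ℝ} (h1 : 0 < X1) (h2 : 1 ≤ TL N X1) :
    IsOpen {p : ℝ × (ι ⊕ κ → ℂ) | X1 < p.1 ∧ p.2 ∈ DX N r δ p.1} := by
  refine isOpen_iff_mem_nhds.2 fun p hp => ?_
  have h0 := h1.trans hp.1
  have a1 : ∀ᶠ x : ℝ × (ι ⊕ κ → ℂ) in 𝓝 p, X1 < x.1 :=
    continuousAt_const.eventually_lt continuousAt_fst hp.1
  have a2 : ∀ᶠ x : ℝ × (ι ⊕ κ → ℂ) in 𝓝 p, ∀ i, ‖x.2 (Sum.inl i)‖ < r :=
    eventually_all.2 fun i => ContinuousAt.eventually_lt (by fun_prop) continuousAt_const (hp.2.1 i)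
  have hT : ContinuousAt (fun x : ℝ × (ι ⊕ κ → ℂ) => TL N x.1 - 0 - 1) p :=
    (((TL_der N h0).hasDerivAt.continuousAt.comp continuousAt_fst).sub continuousAt_const).sub
      continuousAt_const
  have hne : TL N p.1 - 0 - 1 ≠ 0 := by linarith [TL_mono N h1 h0 hp.1]
  have a3 : ∀ᶠ x : ℝ × (ι ⊕ κ → ℂ) in 𝓝 p, ∀ j, x.2 (Sum.inr j) ∈ DB δ (TL N x.1 - 0 - 1) := by
    refine eventually_all.2 fun j => ?_
    have a : ContinuousAt (fun x : ℝ × (ι ⊕ κ → ℂ) => 2 * δ / (TL N x.1 - 0 - 1)) p :=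
      continuousAt_const.div hT hne
    have b : ContinuousAt (fun x : ℝ × (ι ⊕ κ → ℂ) => 2 * (1 + δ) / (TL N x.1 - 0 - 1)) p :=
      continuousAt_const.div hT hne
    have c : ContinuousAt (fun x : ℝ × (ι ⊕ κ → ℂ) =>
        dist (x.2 (Sum.inr j)) ((2 * δ / (TL N x.1 - 0 - 1) : ℝ) : ℂ)) p :=
      Tendsto.dist (by fun_prop : ContinuousAt (fun x : ℝ × (ι ⊕ κ → ℂ) => x.2 (Sum.inr j)) p)
        (Complex.continuous_ofReal.continuousAt.comp a)
    exact c.eventually_lt b (hp.2.2 j)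
  filter_upwards [a1, a2, a3] with x a b c using ⟨a, b, c⟩

/-- the conclusion of the block `B2`, read at the cut -/
theorem conclX_of_concl2 {f : ℝ → (ι ⊕ κ → ℂ) → ℂ} (h : Concl2 fun B => f (XL N B)) :
    ConclX N f := by
  obtain ⟨n, μ, C, r', B1, f0, h1, h2, h3, h4, h5⟩ := h
  obtain ⟨X1, hX1⟩ := eventually_atTop.1
    (((TL_top N).eventually_gt_atTop B1).and (eventually_gt_atTop 0))
  refine ⟨n, μ, C, r', X1, f0, h1, h2, h3, h4, fun X hX => ?_⟩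
  have := h5 _ (hX1 X hX.le).1
  simp only [XL_TL N (hX1 X hX.le).2] at this
  exact this

theorem conclX_of (hL : GL2Stmt) (hG : GiS) (C0 : ℝ) (p : ℕ) : ∃ N0 : ℕ, ∀ N, N0 ≤ N →
    ∀ (ι κ : Type) [Fintype ι] [Fintype κ] (f : ℝ → (ι ⊕ κ → ℂ) → ℂ)
      (al : ℝ → (ι ⊕ κ → ℂ) → κ → ℂ) (r δ X0 k C : ℝ), Fintype.card κ = p →
      Fx N C0 f al r δ X0 k C → ConclX N f := by
  obtain ⟨N0, h⟩ := hG C0 p
  refine ⟨N0, fun N hN ι κ _ _ f al r δ X0 k C hp hf => ?_⟩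
  obtain ⟨m, φ, M, ω, B0, C', g, hR⟩ := h N hN ι κ f al r δ X0 k C hp hf
  exact conclX_of_concl2 (hL _ _ _ _ _ _ _ _ _ _ _ _ _ hR)

end Crest.Agent.N250.Gi.T

end
end

-- ▼ part N250/Gi/Main

/-!
# Row 250 (helper62): `Fx → Rx`
-/

set_option autoImplicit false
set_option linter.unusedSectionVars false
open Set Filter Topology

noncomputable section

namespace Crest.Agent.N250.Gi.T

open B1 B2

variable {N : ℕ}

theorem hjAdm {X : ℝ} {α : ℂ} (h : B1.Adm (KK N) X α) (hX : 2 ≤ X) (hK : 2 * KK N ≤ X ^ 2) :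
    HJ.Adm N X (et α X) := by
  have k0 : 0 < KK N := by unfold KK; positivity
  have h1 := adm_eta h hX hK
  refine ⟨by exact_mod_cast (by linarith : X ≠ 0), lt_of_lt_of_le (by positivity) (adm_re h hX hK),
    (adm_le h hX k0.le).trans (by norm_num), ?_⟩
  rw [HJ.ww, norm_div, norm_one]
  refine one_div_le_one_div_of_le (by positivity) (le_trans ?_ (h1.trans (Complex.re_le_norm _)))
  unfold KK; linarith

theorem cont_G {X V : ℂ} (h : HJ.Adm N X V) (hN : HJ.N0 ≤ N) : ContinuousAt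
    (fun p : ℂ × ℂ => p.1 * HJ.rr p.2 * (HJ.nu N p.1 p.2 - HJ.cs N p.1 p.2) / HJ.kap N) (X, V) := by
  have hX := h.hX
  have h0 := (HJ.differentiableAt_ww hX h.hV0).continuousAt
  have h1 : ContinuousAt (fun p : ℂ × ℂ => HJ.eN N (HJ.ww p.1 p.2)) (X, V) :=
    (HJ.differentiable_eN N _).continuousAt.comp h0
  have h2 : ContinuousAt (fun p : ℂ × ℂ => HJ.cN N (HJ.ww p.1 p.2)) (X, V) :=
    (HJ.differentiable_cN N _).continuousAt.comp h0
  have h5 : ContinuousAt (fun p : ℂ × ℂ => (p.1 ^ 2)⁻¹) (X, V) :=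
    ContinuousAt.inv₀ (by fun_prop) (by simp [hX])
  have h7 : ContinuousAt (fun p : ℂ × ℂ => HJ.tau N p.1 p.2) (X, V) := by
    unfold HJ.tau
    simp only [div_eq_mul_inv]
    fun_prop
  have h8 : ContinuousAt (fun p : ℂ × ℂ => HJ.cs N p.1 p.2) (X, V) := by
    unfold HJ.cs
    refine ContinuousAt.cpow (by fun_prop) continuousAt_const (Or.inl ?_)
    have a1 := h.z_le hN
    have a2 := h.w_small hN
    have a3 := Complex.re_le_norm (4 * HJ.ww X V * HJ.tau N X V ^ 2)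
    simp only [Complex.sub_re, Complex.one_re]
    linarith
  have h9 : ContinuousAt (fun p : ℂ × ℂ => HJ.nu N p.1 p.2) (X, V) := by
    unfold HJ.nu
    simp only [div_eq_mul_inv]
    fun_prop
  have h10 : ContinuousAt (fun p : ℂ × ℂ => HJ.rr p.2) (X, V) :=
    (HJ.hasDerivAt_rr h.hV).continuousAt.comp_of_eq continuousAt_snd rfl
  fun_prop

theorem cont_mm {X : ℝ} {α : ℂ} (h : HJ.Adm N X (et α X)) (hN : HJ.N0 ≤ N) :
    ContinuousAt (fun p : ℝ × ℂ => mm N p.1 p.2) (X, α) := by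
  have h1 : Continuous fun p : ℝ × ℂ => et p.2 p.1 := by unfold et; fun_prop
  have h2 : ContinuousAt (fun p : ℝ × ℂ => z0 N p.1 p.2) (X, α) :=
    (cont_G h hN).comp_of_eq (f := fun p : ℝ × ℂ => ((p.1 : ℂ), et p.2 p.1))
      (Continuous.continuousAt (by fun_prop)) rfl
  have h3 : Continuous fun p : ℝ × ℂ => p.1 ^ 2 / (p.1 ^ 2 + 4) :=
    Continuous.div (by fun_prop) (by fun_prop) fun p => by positivity
  exact ((h1.neg.div_const 2).cexp.continuousAt.mul h2).mul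
    (Complex.continuous_ofReal.comp h3).continuousAt

/-- the constant in front of the derivative -/
def om (N : ℕ) : ℝ := -(Real.pi * HJ.kap N * Real.exp (c0 N / 4))

theorem om_ne (N : ℕ) : om N ≠ 0 := by
  have := HJ.kap_pos N
  have := Real.pi_pos
  exact neg_ne_zero.2 (by positivity)

/-- the ratio of the two weights -/
def rt (N : ℕ) (X : ℝ) : ℝ := (2 * X + 8 / X)⁻¹ / (om N * Real.exp (-TL N X / 4))

theorem rt_eq {X : ℝ} (hX : 0 < X) :
    rt N X = -(X ^ 3 * Real.exp (X ^ 2 / 4) / (2 * Real.pi * HJ.kap N * (X ^ 2 + 4))) := by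
  have e : Real.exp (-TL N X / 4) =
      (Real.exp (X ^ 2 / 4) * X ^ 2 * Real.exp (c0 N / 4))⁻¹ := by
    rw [← Real.exp_log (show 0 < X ^ 2 by positivity), ← Real.exp_add, Real.exp_log (by positivity),
      ← Real.exp_add, ← Real.exp_neg, TL]
    congr 1; ring
  have := HJ.kap_pos N
  have := Real.pi_pos
  rw [rt, e, om]
  field_simp
  ring

theorem mm_eq {X : ℝ} (hX : 0 < X) (α : ℂ) :
    mm N X α = -(rt N X * (2 * Real.pi * HJ.R N X (et α X))) := by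
  have e : Complex.exp (-et α X / 2) = HJ.EE X (et α X) * (Real.exp (X ^ 2 / 4) : ℝ) := by
    rw [HJ.EE, Complex.ofReal_exp, ← Complex.exp_add]
    congr 1; push_cast; ring
  have h1 : (HJ.kap N : ℂ) ≠ 0 := by exact_mod_cast (HJ.kap_pos N).ne'
  have h2 : (Real.pi : ℂ) ≠ 0 := by exact_mod_cast Real.pi_pos.ne'
  have h3 : (X : ℂ) ^ 2 + 4 ≠ 0 := by exact_mod_cast (by positivity : X ^ 2 + 4 ≠ 0)
  rw [rt_eq hX, mm, z0, HJ.R, e]
  generalize Real.exp (X ^ 2 / 4) = t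
  push_cast
  field_simp

theorem rt_le {X k : ℝ} (hX : 0 < X) : |rt N X| * (Real.exp (-X ^ 2 / 4) * X ^ (-(2 + k))) ≤
    X ^ (-(1 + k)) / (2 * Real.pi * HJ.kap N) := by
  have := HJ.kap_pos N
  have := Real.pi_pos
  have e1 : X ^ (-(1 + k)) = X * X ^ (-(2 + k)) := by
    rw [show -(1 + k) = 1 + -(2 + k) by ring, Real.rpow_add hX, Real.rpow_one]
  have t0 := Real.rpow_pos_of_pos hX (-(2 + k))
  rw [rt_eq hX, abs_neg, abs_of_pos (by positivity), e1, neg_div, Real.exp_neg]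
  have : X ^ 3 * Real.exp (X ^ 2 / 4) / (2 * Real.pi * HJ.kap N * (X ^ 2 + 4)) *
      ((Real.exp (X ^ 2 / 4))⁻¹ * X ^ (-(2 + k))) =
      X * X ^ (-(2 + k)) / (2 * Real.pi * HJ.kap N) * (X ^ 2 / (X ^ 2 + 4)) := by field_simp
  rw [this]
  exact mul_le_of_le_one_right (by positivity) ((div_le_one (by positivity)).2 (by linarith))

theorem rp_le {X B g k : ℝ} (hX : 1 ≤ X) (hB : 0 < B) (h : B ≤ 2 * X ^ 2) (g0 : 0 < g)
    (g1 : g ≤ 1 / 2) (gk : 2 * g ≤ k) : X ^ (-(1 + k)) ≤ 2 * B ^ (-(1 / 2 + g)) := by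
  have x0 : 0 < X := by linarith
  have h1 := Real.rpow_le_rpow_of_nonpos hB h (show -(1 / 2 + g) ≤ 0 by linarith)
  rw [Real.mul_rpow zero_le_two (by positivity), ← Real.rpow_natCast, ← Real.rpow_mul x0.le] at h1
  have h2 : (2 : ℝ) ^ (-1 : ℝ) ≤ 2 ^ (-(1 / 2 + g)) :=
    Real.rpow_le_rpow_of_exponent_le one_le_two (by linarith)
  rw [Real.rpow_neg_one] at h2
  have h3 : X ^ (-(1 + k)) ≤ X ^ (((2 : ℕ) : ℝ) * -(1 / 2 + g)) :=
    Real.rpow_le_rpow_of_exponent_le hX (by push_cast; linarith)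
  have h4 := mul_le_mul h2 h3 (by positivity) (by positivity)
  linarith

variable {ι κ : Type} [Fintype ι] [Fintype κ] {C0 r δ X0 k C : ℝ}
  {f : ℝ → (ι ⊕ κ → ℂ) → ℂ} {al : ℝ → (ι ⊕ κ → ℂ) → κ → ℂ}

/-- the remainder, shared between the ends -/
def er (N : ℕ) (f : ℝ → (ι ⊕ κ → ℂ) → ℂ) (al : ℝ → (ι ⊕ κ → ℂ) → κ → ℂ) (X : ℝ) (z : ι ⊕ κ → ℂ) :
    ℂ := (rt N X * deriv (fun s : ℝ => f s z) X - ∑ j, mm N X (al X z j)) / Fintype.card κ

theorem er_le (h : Fx N C0 f al r δ X0 k C) {X : ℝ} (hX : X0 < X) (x0 : 0 < X) {z : ι ⊕ κ → ℂ}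
    (hz : z ∈ DX N r δ X) :
    ‖er N f al X z‖ ≤ |C| / (2 * Real.pi * HJ.kap N) * X ^ (-(1 + k)) := by
  have := HJ.kap_pos N
  have := Real.pi_pos
  have e : rt N X * deriv (fun s : ℝ => f s z) X - ∑ j, mm N X (al X z j) = rt N X *
      (deriv (fun s : ℝ => f s z) X + 2 * Real.pi * ∑ j, HJ.R N X (et (al X z j) X)) := by
    simp only [mm_eq x0, Finset.sum_neg_distrib, ← Finset.mul_sum]
    ring
  rw [er, e, norm_div, norm_mul, Complex.norm_real, Real.norm_eq_abs, Complex.norm_natCast]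
  refine div_le_of_le_mul₀ (by positivity) (by positivity) ?_
  refine (mul_le_mul_of_nonneg_left (h.dX X hX z hz) (abs_nonneg _)).trans ?_
  have h1 := mul_le_mul (le_abs_self C) (rt_le (N := N) (k := k) x0) (by positivity) (abs_nonneg C)
  have h2 := mul_le_mul_of_nonneg_left h1 (Nat.cast_nonneg (Fintype.card κ))
  refine le_of_eq_of_le (by ring) (h2.trans_eq (by ring))

theorem sum_m (h : Fx N C0 f al r δ X0 k C) {X : ℝ} (hX : X0 < X) {z : ι ⊕ κ → ℂ}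
    (hz : z ∈ DX N r δ X) : ∑ j, (mm N X (al X z j) + er N f al X z) =
      rt N X * deriv (fun s : ℝ => f s z) X := by
  rcases isEmpty_or_nonempty κ with h0 | h0
  · have := h.dX X hX z hz
    simp only [Finset.univ_eq_empty, Finset.sum_empty, mul_zero, add_zero, Fintype.card_eq_zero,
      Nat.cast_zero, zero_mul, norm_le_zero_iff] at this
    simp [this]
  · have : (Fintype.card κ : ℂ) ≠ 0 := by exact_mod_cast Fintype.card_ne_zero
    rw [Finset.sum_add_distrib, Finset.sum_const, Finset.card_univ, nsmul_eq_mul, er]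
    field_simp
    ring

theorem slice (h : Fx N C0 f al r δ X0 k C) {X1 : ℝ} (h0 : X0 ≤ X1) (h1 : 0 < X1) (h2 : 1 ≤ TL N X1)
    {X : ℝ} (hX : X1 < X) {z : ι ⊕ κ → ℂ} (hz : z ∈ DX N r δ X) :
    HasDerivAt (fun s : ℝ => f s z)
      (fderiv ℝ (fun p : ℝ × (ι ⊕ κ → ℂ) => f p.1 p.2) (X, z) (1, 0)) X := by
  have a : DifferentiableAt ℝ (fun p : ℝ × (ι ⊕ κ → ℂ) => f p.1 p.2) (X, z) :=
    (h.c1.contDiffAt (mem_of_superset ((isOpen_DX N r δ h1 h2).mem_nhds (x := (X, z)) ⟨hX, hz⟩)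
      fun p hp => ⟨h0.trans_lt hp.1, hp.2⟩)).differentiableAt one_ne_zero
  exact a.hasFDerivAt.comp_hasDerivAt X ((hasDerivAt_id X).prodMk (hasDerivAt_const X z))

theorem cont_m (h : Fx N C0 f al r δ X0 k C) (hN : HJ.N0 ≤ N) {X1 : ℝ} (h0 : X0 ≤ X1) (h1 : 2 ≤ X1)
    (h2 : 1 ≤ TL N X1) (h3 : 2 * KK N ≤ X1 ^ 2) (j : κ) : ContinuousOn
      (fun p : ℝ × (ι ⊕ κ → ℂ) => mm N p.1 (al p.1 p.2 j) + er N f al p.1 p.2)
      {p | X1 < p.1 ∧ p.2 ∈ DX N r δ p.1} := by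
  have x1 : 0 < X1 := by linarith
  have hs : {p : ℝ × (ι ⊕ κ → ℂ) | X1 < p.1 ∧ p.2 ∈ DX N r δ p.1} ⊆
      {p | X0 < p.1 ∧ p.2 ∈ DX N r δ p.1} := fun p hp => ⟨h0.trans_lt hp.1, hp.2⟩
  have a : ∀ j, ContinuousOn (fun p : ℝ × (ι ⊕ κ → ℂ) => mm N p.1 (al p.1 p.2 j))
      {p | X1 < p.1 ∧ p.2 ∈ DX N r δ p.1} := fun j p hp =>
    (cont_mm (hjAdm (h.adm _ (hs hp).1 _ hp.2 j) (by linarith [hp.1]) (by nlinarith [hp.1]))
      hN).comp_continuousWithinAt_of_eq (f := fun p : ℝ × (ι ⊕ κ → ℂ) => (p.1, al p.1 p.2 j))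
      (continuousWithinAt_fst.prodMk ((h.cont j).mono hs p hp)) rfl
  have b : ContinuousOn (fun p : ℝ × (ι ⊕ κ → ℂ) => deriv (fun s : ℝ => f s p.2) p.1)
      {p | X1 < p.1 ∧ p.2 ∈ DX N r δ p.1} :=
    (((h.c1.mono hs).continuousOn_fderiv_of_isOpen (isOpen_DX N r δ x1 h2) le_rfl).clm_apply
      continuousOn_const).congr fun p hp => (slice h h0 x1 h2 hp.1 hp.2).deriv
  have c : ContinuousOn (fun p : ℝ × (ι ⊕ κ → ℂ) => rt N p.1)
      {p | X1 < p.1 ∧ p.2 ∈ DX N r δ p.1} := by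
    refine ContinuousOn.congr (Continuous.continuousOn ?_) fun p hp => rt_eq (x1.trans hp.1)
    have := HJ.kap_pos N
    have := Real.pi_pos
    exact (Continuous.div (by fun_prop) (by fun_prop) fun p => by positivity).neg
  exact (a j).add ((((Complex.continuous_ofReal.comp_continuousOn c).mul b).sub
    (continuousOn_finsetSum _ fun j _ => a j)).div_const _)

set_option maxHeartbeats 400000 in
theorem giS : GiS := by
  intro C0 p
  obtain ⟨N0, hm⟩ := mmS C0 p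
  refine ⟨max N0 HJ.N0, fun N hN ι κ _ _ f al r δ X0 k C hp h => ?_⟩
  obtain ⟨Mj, C1, hK, hm⟩ := hm N (le_of_max_le_left hN)
  obtain ⟨⟨X1, C2, hc⟩, hs⟩ := hm C k h.k_pos
  obtain ⟨X3, hX3⟩ := eventually_atTop.1 ((TL_cmp N).and (((TL_top N).eventually_ge_atTop 8).and
    (((tendsto_pow_atTop two_ne_zero).eventually_ge_atTop (2 * KK N)).and
      (eventually_ge_atTop (max (max X0 X1) 2)))))
  obtain ⟨-, b8, bK, bX⟩ := hX3 X3 le_rfl
  simp only [max_le_iff] at bX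
  obtain ⟨⟨b0, b1⟩, b2⟩ := bX
  have x3 : 0 < X3 := by linarith
  have k0 := h.k_pos
  set g := min k 1 / 2 with hg
  have g0 : 0 < g := by positivity
  have g1 : 2 * g ≤ 1 := by linarith [min_le_right k 1]
  have gk : 2 * g ≤ k := by linarith [min_le_left k 1]
  set C3 := |C| / (2 * Real.pi * HJ.kap N) with hC3
  have c3 : 0 ≤ C3 := by have := HJ.kap_pos N; positivity
  have c0' := abs_nonneg C
  have c1' := abs_nonneg C1
  have c2' := abs_nonneg C2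
  have sp : ∀ B, TL N X3 < B → X3 < XL N B ∧ TL N (XL N B) = B := fun B hB => XL_spec N x3 hB
  have dm : ∀ B, TL N X3 < B → DX (ι := ι) (κ := κ) N r δ (XL N B) = DomB r δ (fun _ => 0) B :=
    fun B hB => by rw [DX, (sp B hB).2]
  have mp : MapsTo (fun q : ℝ × (ι ⊕ κ → ℂ) => (XL N q.1, q.2))
      {q | TL N X3 < q.1 ∧ q.2 ∈ DomB r δ (fun _ => 0) q.1} {q | X3 < q.1 ∧ q.2 ∈ DX N r δ q.1} :=
    fun q hq => ⟨(sp _ hq.1).1, (dm _ hq.1).ge hq.2⟩
  have mc : ContDiffOn ℝ 1 (fun q : ℝ × (ι ⊕ κ → ℂ) => (XL N q.1, q.2))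
      {q | TL N X3 < q.1 ∧ q.2 ∈ DomB r δ (fun _ => 0) q.1} :=
    ((XL_c1 N x3).comp contDiffOn_fst fun q hq => hq.1).prodMk contDiffOn_snd
  have key : ∀ X, X3 < X → ∀ z ∈ DX N r δ X, ‖er N f al X z‖ ≤ 2 * C3 * TL N X ^ (-(1 / 2 + g)) ∧
      1 / X ^ 2 ≤ 2 * TL N X ^ (-(1 / 2 + g)) ∧ 0 ≤ TL N X ^ (-(1 / 2 + g)) := fun X hX z hz => by
    obtain ⟨⟨-, a1⟩, a2, -⟩ := hX3 X hX.le
    have x0 := x3.trans hX
    have a3 := rp_le (k := k) (by linarith : 1 ≤ X) (by linarith) a1 g0 (by linarith) gk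
    have a4 := rp_le (k := 1) (by linarith : 1 ≤ X) (by linarith) a1 g0 (by linarith) g1
    rw [Real.rpow_neg x0.le, one_add_one_eq_two, Real.rpow_two, ← one_div] at a4
    refine ⟨(er_le h (b0.trans_lt hX) x0 hz).trans ?_, a4, Real.rpow_nonneg (by linarith) _⟩
    nlinarith
  refine ⟨fun j B z => mm N (XL N B) (al (XL N B) z j) + er N f al (XL N B) z, Hk.ph (N + 1), Mj,
    om N, TL N X3, |C| + |C1| + 2 * |C2| + 2 * C3, g, h.r_pos, h.δ_pos, h.δ_le, b8,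
    fun j => by simp; linarith, g0, by exact_mod_cast om_ne N, ?_, fun B hB => ?_,
    fun B hB z hz => ?_, fun B hB x hx => ?_, ?_, fun j => ?_,
    fun B hB z hz => ?_, fun B hB z hz j ha => ?_, fun B hB z hz j u ha hu => ?_,
    fun V ε hε => ?_⟩
  · rw [hp]
    exact Hk.ker_mono hK (by linarith [le_abs_self C1])
  · rw [← dm B hB]
    exact h.hol _ (b0.trans_lt (sp B hB).1)
  · rw [← dm B hB] at hz
    exact (h.bdd _ (b0.trans_lt (sp B hB).1) z hz).trans (by linarith [le_abs_self C])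
  · rw [← dm B hB] at hx
    exact h.real _ (b0.trans_lt (sp B hB).1) x hx
  · have a := h.c1.comp mc fun q hq => ⟨b0.trans_lt (mp hq).1, (mp hq).2⟩
    simp only [Function.comp_def] at a
    exact a
  · have a := (cont_m h (le_of_max_le_right hN) b0 b2 (by linarith) bK j).comp mc.continuousOn mp
    simp only [Function.comp_def] at a
    exact a
  · have hz' : z ∈ DX N r δ (XL N B) := by rwa [dm B hB]
    have a := (slice h b0 x3 (by linarith) (sp B hB).1 hz').differentiableAt.hasDerivAt.scomp B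
      (XL_der N x3 hB)
    rw [sum_m h (b0.trans_lt (sp B hB).1) hz', rt, (sp B hB).2]
    refine a.congr_deriv ?_
    have e1 : (om N : ℂ) ≠ 0 := by exact_mod_cast om_ne N
    have e2 : (Real.exp (-B / 4) : ℂ) ≠ 0 := by exact_mod_cast (Real.exp_pos _).ne'
    rw [Complex.real_smul, Complex.ofReal_div, Complex.ofReal_mul]
    field_simp
  · obtain ⟨X, hX, rfl⟩ := exists_TL N x3 hB
    simp only [XL_TL N (x3.trans hX)]
    obtain ⟨a1, a2, a3⟩ := key X hX z hz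
    have a4 := (hc X (b1.trans_lt hX) _ _ (h.adm X (b0.trans_lt hX) z hz j)
      (h.pos X (b0.trans_lt hX) z hz j)).1 ha
    have a5 := mul_le_mul (le_abs_self C2) a2 (by positivity) c2'
    rw [mul_one_div] at a5
    refine (norm_add_le _ _).trans ?_
    nlinarith
  · obtain ⟨X, hX, rfl⟩ := exists_TL N x3 hB
    simp only [XL_TL N (x3.trans hX), sub_zero] at hu ⊢
    obtain ⟨a1, a2, a3⟩ := key X hX z hz
    have a4 := (hc X (b1.trans_lt hX) _ _ (h.adm X (b0.trans_lt hX) z hz j)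
      (h.pos X (b0.trans_lt hX) z hz j)).2 u ha hu
    have a0 : 0 ≤ ((1 + ‖u‖) ^ 2)⁻¹ := by positivity
    have a5 := mul_le_mul (le_abs_self C2) (add_le_add_left a2 ((1 + ‖u‖) ^ 2)⁻¹)
      (by positivity) c2'
    refine (norm_add_le _ _).trans ?_
    nlinarith
  · obtain ⟨X2, hs⟩ := hs V (ε / 2) (half_pos hε)
    refine ⟨TL N (max (max X3 X2) (2 * C3 / ε)), 1, one_pos, fun B hB z hz _ j u hu hV hr => ?_⟩
    obtain ⟨X, hX, rfl⟩ := exists_TL N (x3.trans_le (by simp)) hB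
    simp only [max_lt_iff] at hX
    obtain ⟨⟨hX, hX2⟩, hX4⟩ := hX
    have x0 := x3.trans hX
    simp only [XL_TL N x0, sub_zero] at hu ⊢
    have a4 := hs X hX2 _ _ u (h.adm X (b0.trans_lt hX) z hz j) (h.pos X (b0.trans_lt hX) z hz j)
      hu hV hr
    have a1 := er_le h (b0.trans_lt hX) x0 hz
    have a2 : X ^ (-(1 + k)) ≤ X ^ (-1 : ℝ) :=
      Real.rpow_le_rpow_of_exponent_le (by linarith) (by linarith)
    rw [Real.rpow_neg_one] at a2
    have a3 : C3 * X⁻¹ ≤ ε / 2 := by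
      rw [div_lt_iff₀ hε] at hX4
      rw [← div_eq_mul_inv, div_le_iff₀ x0]; linarith
    rw [add_sub_right_comm]
    refine (norm_add_le _ _).trans ?_
    nlinarith

end Crest.Agent.N250.Gi.T

end
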