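import Crest.Agent.N250.Gi.Cau
import Crest.Agent.N250.Gi.Defs
import Crest.Agent.N250.HJ.Main

/-!
# Row 250, block B1 (helper68): the working family of far data

`wf N (X, a, b)` = cut `X`, far parameter `a`, inner datum `b`, far slope `HJ.slope` of order `N`,
no far values of the modes `± 1`.
-/

set_option autoImplicit false
open Set Complex Metric Filter Topology

noncomputable section

namespace Crest.Agent.N250.Gi

open B1

variable {ℓ : Ell}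

/-- real part of `η` at a complex cut -/
theorem re_et_ge {K : ℝ} {X a : ℂ} (hK : 0 ≤ K) (h4 : 4 ≤ X.re) (hKX : 16 * K ≤ X.re ^ 2)
    (hi : |X.im| < X.re⁻¹) (h : Adm K X.re a) : 2 * K / X.re ^ 2 + 1 / X.re ^ 2 ≤ (et a X).re := by
  set x := X.re with hx
  set y := X.im with hy
  have x0 : 0 < x := by linarith
  have x2 : 16 ≤ x ^ 2 := by nlinarith
  set u : ℝ := 1 / x ^ 2 with hu
  have u0 : 0 < u := by positivity
  have u1 : u ≤ 1 / 16 := one_div_le_one_div_of_le (by norm_num) x2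
  have ux : u * x ^ 2 = 1 := by rw [hu]; field_simp
  set m : ℝ := 2 * K / x ^ 2 with hm
  have m0 : 0 ≤ m := by positivity
  have m1 : m ≤ 1 / 8 := by rw [hm, div_le_iff₀ (by positivity)]; linarith
  set p : ℝ := a.re * x ^ 2 / 2 with hp
  set s : ℝ := a.im * x ^ 2 / 2 with hs
  have hθ : |x * y| < 1 := by
    rw [abs_mul, abs_of_pos x0]
    have := mul_lt_mul_of_pos_left hi x0
    rwa [mul_inv_cancel₀ x0.ne'] at this
  obtain ⟨θ1, θ2⟩ := abs_lt.1 hθ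
  have e1 : (a * (x : ℂ) ^ 2 / 2 - 1 / 8) = ((p - 1 / 8 : ℝ) : ℂ) + (s : ℝ) * I := by
    conv_lhs => rw [← re_add_im a]
    rw [hp, hs]; push_cast; ring
  have h1 : ‖a * (x : ℂ) ^ 2 / 2 - 1 / 8‖ < 9 / 8 - m := by unfold Adm at h; linarith
  have h2 : (p - 1 / 8) ^ 2 + s ^ 2 ≤ (9 / 8 - m) ^ 2 := by
    have := pow_le_pow_left₀ (norm_nonneg _) h1.le 2
    rwa [e1, Complex.sq_norm, normSq_add_mul_I] at this
  have h3 : |p - 1 / 8| ≤ 9 / 8 - m := abs_le_of_sq_le_sq' (by nlinarith [sq_nonneg s]) (by linarith) |>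
    abs_le.2
  obtain ⟨h3, h3'⟩ := abs_le.1 h3
  have h5 : 4 / 9 * s ^ 2 ≤ p + 1 - m := by nlinarith
  have e2 : (et a X).re = 1 + (1 - (2 * u + (x * y) ^ 2 * u ^ 2)) * p - 2 * u * (x * y) * s := by
    have : (et a X).re = 1 + (a.re * (x ^ 2 - y ^ 2 - 2) - a.im * (2 * x * y)) / 2 := by
      simp only [et, add_re, one_re, div_ofNat_re, mul_re, sub_re, sub_im, sq, mul_im, re_ofNat,
        im_ofNat, ← hx, ← hy]
      ring
    rw [this, hp, hs, hu]; field_simp; ring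
  rw [e2]
  set θ := x * y
  set τ := 2 * u + θ ^ 2 * u ^ 2 with hτ
  have θ3 : θ ^ 2 ≤ 1 := by nlinarith
  have τ1 : 2 * u ≤ τ := by nlinarith [mul_nonneg (sq_nonneg θ) (sq_nonneg u)]
  have τ2 : τ ≤ 1 / 4 := by nlinarith [mul_le_mul_of_nonneg_right θ3 (sq_nonneg u)]
  have k1 : (1 - τ) * (4 / 9 * s ^ 2 - 1 + m) ≤ (1 - τ) * p :=
    mul_le_mul_of_nonneg_left (by linarith) (by linarith)
  have k2 : 1 / 3 * s ^ 2 ≤ (1 - τ) * (4 / 9 * s ^ 2) := by nlinarith [sq_nonneg s]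
  have k3 : 2 * u * θ * s ≤ 1 / 3 * s ^ 2 + 3 * u ^ 2 := by
    nlinarith [sq_nonneg (s - 3 * u * θ), mul_le_mul_of_nonneg_right θ3 (sq_nonneg u)]
  nlinarith [mul_le_mul_of_nonneg_left m1 (show 0 ≤ τ by linarith)]

/-- admissible far parameters are admissible for the Hamilton-Jacobi ansatz, complex cut -/
theorem hj_adm {N : ℕ} {K : ℝ} {X a : ℂ} (hK : KK N - 1 / 2 ≤ K) (h4 : 4 ≤ X.re)
    (hKX : 16 * K ≤ X.re ^ 2) (hi : |X.im| < X.re⁻¹) (h : Adm K X.re a) : HJ.Adm N X (et a X) := by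
  have k0 : 1 ≤ KK N := by unfold KK; linarith [Nat.cast_nonneg (α := ℝ) N]
  have x0 : 0 < X.re := by linarith
  have h2 := re_et_ge (by linarith) h4 hKX hi h
  rw [← add_div] at h2
  have h3 : 0 < (2 * K + 1) / X.re ^ 2 := div_pos (by linarith) (by positivity)
  refine ⟨fun e => by simp [e] at x0, by linarith, et_le (by linarith) (by linarith)
    (hi.le.trans (inv_le_one_of_one_le₀ (by linarith))) h, ?_⟩
  rw [HJ.ww, norm_div, norm_one]
  refine one_div_le_one_div_of_le (by positivity) ?_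
  rw [norm_mul, norm_mul, norm_pow, Complex.norm_two]
  have h5 : X.re ^ 2 ≤ ‖X‖ ^ 2 := pow_le_pow_left₀ x0.le (re_le_norm X) 2
  have h6 := mul_le_mul (h2.trans (re_le_norm _)) h5 (by positivity) (norm_nonneg _)
  rw [div_mul_cancel₀ _ (by positivity)] at h6
  unfold KK at hK
  linarith

theorem adm_mono {K1 K X : ℝ} {a : ℂ} (hK : K1 ≤ K) (h : Adm K X a) : Adm K1 X a := by
  have : 2 * K1 / X ^ 2 ≤ 2 * K / X ^ 2 := by gcongr
  unfold Adm at h ⊢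
  linarith

/-- the far slope of `w` -/
def hN (N : ℕ) (X a : ℂ) : ℂ := HJ.slope N X (et a X) - a * X

theorem hN_add (N : ℕ) (X a : ℂ) : a * X + hN N X a = HJ.slope N X (et a X) := by
  rw [hN]; ring

theorem hN_le {N : ℕ} {X a : ℂ} (hN0 : HJ.N0 ≤ N) (h : HJ.Adm N X (et a X)) :
    ‖X‖ * ‖hN N X a‖ ≤ 2000 / ((N : ℝ) + 1) + 2 * ‖a‖ := by
  have e : X * hN N X a = (X * HJ.slope N X (et a X) - 2 * (et a X - 1)) - 2 * a := by
    simp only [hN]; unfold et; ring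
  rw [← norm_mul, e]
  refine (norm_sub_le _ _).trans ?_
  rw [norm_mul, Complex.norm_two]
  have h1 := (h.slope_sub hN0).trans (mul_le_mul_of_nonneg_left h.hw (by norm_num))
  have h2 : (12000 : ℝ) * (1 / (7 * ((N : ℝ) + 1))) ≤ 2000 / ((N : ℝ) + 1) := by
    rw [mul_one_div, div_le_div_iff₀ (by positivity) (by positivity)]
    nlinarith [Nat.cast_nonneg (α := ℝ) N]
  linarith

theorem slope_le {N : ℕ} {X V : ℂ} (hN0 : HJ.N0 ≤ N) (h : HJ.Adm N X V) :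
    ‖X‖ * ‖HJ.slope N X V‖ ≤ 11 := by
  have h1 := h.slope_sub hN0
  have h2 := h.w_small hN0
  have h3 := norm_add_le (X * HJ.slope N X V - 2 * (V - 1)) (2 * (V - 1))
  have h4 := norm_sub_le V 1
  rw [sub_add_cancel, norm_mul, norm_mul, Complex.norm_two] at h3
  rw [norm_one] at h4
  linarith [h.hV']

theorem slope_sq_le {N : ℕ} {X V : ℂ} (hN0 : HJ.N0 ≤ N) (h : HJ.Adm N X V) :
    ‖HJ.slope N X V‖ ^ 2 ≤ ‖V‖ / 4 := by
  have h1 := pow_le_pow_left₀ (by positivity) (slope_le hN0 h) 2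
  have h2 := h.w_small hN0
  have x0 : 0 < ‖X‖ := norm_pos_iff.2 h.hX
  have v0 : 0 < ‖V‖ := norm_pos_iff.2 h.hV0
  rw [HJ.ww, norm_div, norm_one, norm_mul, norm_mul, norm_pow, Complex.norm_two,
    div_le_div_iff₀ (by positivity) (by norm_num)] at h2
  refine le_of_mul_le_mul_left (a := ‖X‖ ^ 2) ?_ (by positivity)
  nlinarith

/-- parameters `(X, a, b)` of the working family -/
abbrev Pw : Type := ℂ × ℂ × Wi (omP 2)

/-- the working family of data -/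
def wf (ℓ : Ell) (N : ℕ) (q : Pw) : Par ℓ :=
  (q.1, q.2.1, q.2.2, Wi.single _ 0 (hN N q.1 q.2.1), 0, 0)

/-- its domain; `X1` is a lower bound for the cut -/
def Ow (R K g ε X1 : ℝ) : Set Pw :=
  {q | X1 < q.1.re ∧ |q.1.im| < q.1.re⁻¹ ∧ Adm K q.1.re q.2.1 ∧ R ^ g * ‖q.2.2‖ < ε / 2}

/-- `N`, `K`, `X1` are large enough -/
structure Big (N : ℕ) (R K ε X1 : ℝ) : Prop where
  R0 : 0 < R
  ε0 : 0 < ε
  N0 : HJ.N0 ≤ N
  Nε : 8000 / ε ≤ (N : ℝ) + 1
  KN : KK N - 1 / 2 ≤ K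
  XR : 2 * R + 4 ≤ X1
  XK : 4 * √K ≤ X1
  Xε : 20 / ε ≤ X1 ^ 2

namespace Big

variable {N : ℕ} {R K g g' ε X1 : ℝ} (h : Big N R K ε X1) {q : Pw}
include h

theorem K0 : 0 < K := lt_of_lt_of_le (by unfold KK; linarith [Nat.cast_nonneg (α := ℝ) N]) h.KN

theorem X4 : 4 ≤ X1 := by linarith [h.XR, h.R0]

theorem mono {X2 : ℝ} (h2 : X1 ≤ X2) : Big N R K ε X2 :=
  ⟨h.R0, h.ε0, h.N0, h.Nε, h.KN, h.XR.trans h2, h.XK.trans h2,
    h.Xε.trans (pow_le_pow_left₀ (by linarith [h.X4]) h2 2)⟩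

theorem KX {x : ℝ} (hx : X1 ≤ x) : 16 * K ≤ x ^ 2 := by
  have h1 := pow_le_pow_left₀ (by positivity) (h.XK.trans hx) 2
  rwa [mul_pow, Real.sq_sqrt h.K0.le, show (4 : ℝ) ^ 2 = 16 by norm_num] at h1

theorem hj (hq : q ∈ Ow R K g ε X1) : HJ.Adm N q.1 (et q.2.1 q.1) :=
  hj_adm h.KN (by linarith [h.X4, hq.1]) (h.KX hq.1.le) hq.2.1 hq.2.2.1

theorem hN_small (hq : q ∈ Ow R K g ε X1) : q.1.re * ‖hN N q.1 q.2.1‖ ≤ ε / 2 := by
  have h1 := hN_le h.N0 (h.hj hq)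
  have h2 := adm_norm h.K0.le hq.2.2.1
  have e0 := h.ε0
  have h3 : 2000 / ((N : ℝ) + 1) ≤ ε / 4 := by
    have := h.Nε
    rw [div_le_iff₀ e0] at this
    rw [div_le_iff₀ (by positivity)]; linarith
  have h4 : 20 / ε ≤ q.1.re ^ 2 :=
    h.Xε.trans (pow_le_pow_left₀ (by linarith [h.X4]) hq.1.le 2)
  have h5 : 2 * ‖q.2.1‖ ≤ ε / 4 := by
    have := mul_le_mul_of_nonneg_left h4 (norm_nonneg q.2.1)
    rw [← mul_div_assoc, div_le_iff₀ e0] at this
    nlinarith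
  have := mul_le_mul_of_nonneg_right (re_le_norm q.1) (norm_nonneg (hN N q.1 q.2.1))
  linarith

omit h in
theorem dn_wf (x : ℝ) (a : ℂ) : dn R g g' x a (wf ℓ N q).2.2 =
    R ^ g * ‖q.2.2‖ + x * ‖hN N q.1 q.2.1‖ := by
  simp [dn, wf]

theorem mem {K1 : ℝ} (hK : K1 ≤ K) (hq : q ∈ Ow R K g ε X1) : wf ℓ N q ∈ Dom R K1 g g' ε := by
  have h1 := Real.sqrt_le_sqrt hK
  refine ⟨h.XR.trans_lt hq.1, lt_of_le_of_lt (by linarith [h.XK, Real.sqrt_nonneg K]) hq.1, hq.2.1,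
    adm_mono hK hq.2.2.1, ?_⟩
  rw [dn_wf]
  have := h.hN_small hq
  have := hq.2.2.2
  change R ^ g * ‖q.2.2‖ + q.1.re * _ < ε
  linarith

theorem diff_hN (hq : q ∈ Ow R K g ε X1) :
    DifferentiableAt ℂ (fun q : Pw => hN N q.1 q.2.1) q := by
  have h1 : DifferentiableAt ℂ (fun q : Pw => (q.1, et q.2.1 q.1)) q := by unfold et; fun_prop
  have h2 := ((h.hj hq).differentiableAt_slope h.N0).comp q h1
  exact h2.sub (by fun_prop)

theorem diff (hq : q ∈ Ow R K g ε X1) : DifferentiableAt ℂ (wf ℓ N) q := by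
  have h1 : DifferentiableAt ℂ (fun q : Pw => Wi.single (omF ℓ) 0 (hN N q.1 q.2.1)) q :=
    ((Wi.cst (omF ℓ)).toContinuousLinearMap.differentiableAt).comp q (h.diff_hN hq)
  unfold wf
  fun_prop

end Big


/-- the end solver along the working family -/
theorem Big.diff_U {N : ℕ} {R K K1 g g' ε ε1 C X1 : ℝ} {U : Par ℓ → Jt ℓ} (h : Big N R K ε X1)
    (hK : K1 ≤ K) (hU : IsEnd R K1 g g' ε ε1 C ℓ U) :
    DifferentiableOn ℂ (fun q => U (wf ℓ N q)) (Ow R K g ε X1) :=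
  hU.hol.comp (fun _ hq => (h.diff hq).differentiableWithinAt) fun _ hq => h.mem hK hq

end Crest.Agent.N250.Gi

end
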